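import Vale.Agent.P236J3.Cq

/-!
# P236J3 / Bas : enumeration of monomials, masks of windows
-/

noncomputable section

namespace Vale.Agent.P236J3

open MvPolynomial Vale.Agent.P236EL Vale.Agent.P236KE Vale.Agent.P236K2 Vale.Agent.P236K3
  Vale.Agent.P236JF Vale.Agent.P236JR

section enum

variable {α : Type}

/-- actions at a monomial: generator, exponent of `v_1`, length, the other exponents -/
abbrev FE (α : Type) : Type := Nat → Nat → Nat → Nat → Nat → Nat → α → α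

def ea9 (p : Nat → Nat → Bool) (f : FE α) (i e4 e3 e2 j : Nat) (a : α) (l : Nat) : α :=
  Bool.rec (motive := fun _ => α) a (f i j l e2 e3 e4 a) (p j l)
def ea8 (p : Nat → Nat → Bool) (f : FE α) (i e4 e3 e2 : Nat) (a : α) (j : Nat) : α :=
  force (Nat.add (Nat.add j e2) (Nat.add e3 e4)) (ea9 p f i e4 e3 e2 j a)
def ea7 (p : Nat → Nat → Bool) (f : FE α) (i e4 e3 m e2 : Nat) (a : α) : α :=
  force (Nat.sub m (Nat.mul (nat_lit 4) e2)) (ea8 p f i e4 e3 e2 a)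
def ea6 (p : Nat → Nat → Bool) (f : FE α) (i e4 e3 : Nat) (a : α) (m : Nat) : α :=
  loop (ea7 p f i e4 e3 m) (Nat.succ (Nat.div m (nat_lit 4))) a
def ea5 (p : Nat → Nat → Bool) (f : FE α) (i e4 m e3 : Nat) (a : α) : α :=
  force (Nat.sub m (Nat.mul (nat_lit 13) e3)) (ea6 p f i e4 e3 a)
def ea4 (p : Nat → Nat → Bool) (f : FE α) (i e4 : Nat) (a : α) (m : Nat) : α :=
  loop (ea5 p f i e4 m) (Nat.succ (Nat.div m (nat_lit 13))) a
def ea3 (p : Nat → Nat → Bool) (f : FE α) (i m e4 : Nat) (a : α) : α :=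
  force (Nat.sub m (Nat.mul (nat_lit 40) e4)) (ea4 p f i e4 a)
def ea2 (p : Nat → Nat → Bool) (f : FE α) (i : Nat) (a : α) (m : Nat) : α :=
  loop (ea3 p f i m) (Nat.succ (Nat.div m (nat_lit 40))) a
def ea1 (p : Nat → Nat → Bool) (f : FE α) (T i : Nat) (a : α) (d : Nat) : α :=
  Bool.rec (motive := fun _ => α) a (force (Nat.sub T d) (ea2 p f i a)) (Nat.ble d T)
def ea0 (p : Nat → Nat → Bool) (f : FE α) (L : LD) (T i : Nat) (a : α) : α :=
  force (L.dg i) (ea1 p f T i a)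
/-- a loop over the monomials of total degree `T` which satisfy `p` -/
def enumA (p : Nat → Nat → Bool) (f : FE α) (L : LD) (T : Nat) (a : α) : α :=
  loop (ea0 p f L T) L.n a

/-- admissible exponents -/
def AdA (L : LD) (T i j l e2 e3 e4 : ℕ) : Prop :=
  i < L.n ∧ j + 4 * e2 + 13 * e3 + 40 * e4 + L.dg i = T ∧ l = j + e2 + e3 + e4

variable {p : ℕ → ℕ → Bool} {f : FE α} {L : LD} {T : ℕ} {Q : α → Prop}

theorem enumA_ind {a : α} (h : Q a)
    (hf : ∀ i j l e2 e3 e4 b, AdA L T i j l e2 e3 e4 → p j l = true → Q b →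
      Q (f i j l e2 e3 e4 b)) : Q (enumA p f L T a) :=
  loop_ind h fun i hi _ hb => bool_ind hb fun h1 =>
    loop_ind (g := ea3 p f i (T - L.dg i)) (n := (T - L.dg i) / 40 + 1) hb fun e4 h4 _ hb =>
      loop_ind (g := ea5 p f i e4 (T - L.dg i - 40 * e4)) (n := (T - L.dg i - 40 * e4) / 13 + 1) hb
        fun e3 h3 _ hb => loop_ind (g := ea7 p f i e4 e3 (T - L.dg i - 40 * e4 - 13 * e3))
          (n := (T - L.dg i - 40 * e4 - 13 * e3) / 4 + 1) hb fun e2 h2 b hb =>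
            bool_ind hb fun h5 => hf _ _ _ _ _ _ b (by
              have h7 : L.dg i ≤ T := Nat.le_of_ble_eq_true h1
              refine ⟨hi, ?_, (add_assoc _ e3 e4).symm⟩
              change T - L.dg i - 40 * e4 - 13 * e3 - 4 * e2 + _ + _ + _ + _ = _
              omega) h5 hb

theorem enumA_cov (a : α) {i j l e2 e3 e4 : ℕ} (h : AdA L T i j l e2 e3 e4) (hp : p j l = true)
    (h' : ∀ b, Q (f i j l e2 e3 e4 b)) (hf : ∀ i j l e2 e3 e4 b, Q b → Q (f i j l e2 e3 e4 b)) :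
    Q (enumA p f L T a) := by
  obtain ⟨h1, h2, rfl⟩ := h
  have m7 : ∀ i e4 e3 m e2 b, Q b → Q (ea7 p f i e4 e3 m e2 b) := fun _ _ _ _ _ _ hb =>
    bool_ind hb fun _ => hf _ _ _ _ _ _ _ hb
  have m5 : ∀ i e4 m e3 b, Q b → Q (ea5 p f i e4 m e3 b) := fun i e4 m e3 _ hb =>
    loop_ind (g := ea7 p f i e4 e3 (m - 13 * e3)) (n := (m - 13 * e3) / 4 + 1) hb
      fun _ _ _ => m7 _ _ _ _ _ _
  have m3 : ∀ i m e4 b, Q b → Q (ea3 p f i m e4 b) := fun i m e4 _ hb =>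
    loop_ind (g := ea5 p f i e4 (m - 40 * e4)) (n := (m - 40 * e4) / 13 + 1) hb
      fun _ _ _ => m5 _ _ _ _ _
  refine loop_cov a h1 (fun b => ?_) fun i _ hb => bool_ind hb fun _ =>
    loop_ind (g := ea3 p f i (T - L.dg i)) (n := (T - L.dg i) / 40 + 1) hb
      fun _ _ _ => m3 _ _ _ _
  refine bool_true (Nat.ble_eq_true_of_le (show L.dg i ≤ T by omega)) ?_
  refine loop_cov (j := e4) b (show e4 < (T - L.dg i) / 40 + 1 by omega) (fun b => ?_) (m3 _ _)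
  refine loop_cov (j := e3) b (show e3 < (T - L.dg i - 40 * e4) / 13 + 1 by omega) (fun b => ?_)
    (m5 _ _ _)
  refine loop_cov (j := e2) b (show e2 < (T - L.dg i - 40 * e4 - 13 * e3) / 4 + 1 by omega)
    (fun b => ?_) (m7 _ _ _ _)
  change Q (ea8 p f i e4 e3 e2 b (T - L.dg i - 40 * e4 - 13 * e3 - 4 * e2))
  rw [show T - L.dg i - 40 * e4 - 13 * e3 - 4 * e2 = j by omega]
  change Q (ea9 p f i e4 e3 e2 j b (j + e2 + (e3 + e4)))
  rw [← add_assoc]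
  exact bool_true hp (h' b)

theorem AdA.wt {i j l e2 e3 e4 : ℕ} (h : AdA L T i j l e2 e3 e4) :
    wtM (mk4 j e2 e3 e4) + L.dg i = T ∧ lenM (mk4 j e2 e3 e4) = l ∧
      pl (mk4 j e2 e3 e4) = 3 * e3 + e4 := by
  obtain ⟨-, h1, h2⟩ := h
  rw [wtM, weight_wt_mk4, lenM, weight_mk4, pl, mk4_2, mk4_3]
  omega

theorem AdA.inU {i j l e2 e3 e4 : ℕ} (h : AdA L T i j l e2 e3 e4) (c : CL) :
    InU c (mk4 j e2 e3 e4) ↔ inU c j l = true := by rw [InU, mk4_0, h.wt.2.1]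

theorem AdA.of {i : ℕ} {J : Mo} (hi : i < L.n) (hT : T < 121) (h : wtM J + L.dg i = T) :
    AdA L T i (J 0) (lenM J) (J 1) (J 2) (J 3) ∧ mk4 (J 0) (J 1) (J 2) (J 3) = J := by
  have h1 := wt_len (J := J) (by omega)
  exact ⟨⟨hi, by omega, h1.2⟩, (eq_mk4 (show wtM J < 121 by omega)).symm⟩

end enum

/-- the window -/
def wn (c c' : CL) (j l : Nat) : Bool :=
  Bool.rec (motive := fun _ => Bool) (inU c j l) false (inU c' j l)

theorem wn_iff {c c' : CL} {j l : ℕ} :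
    wn c c' j l = true ↔ inU c j l = true ∧ ¬ inU c' j l = true := by
  rw [wn]
  cases inU c' j l <;> simp

theorem AdA.wn {L : LD} {T i j l e2 e3 e4 : ℕ} (h : AdA L T i j l e2 e3 e4) (c c' : CL) :
    Wn c c' (mk4 j e2 e3 e4) ↔ wn c c' j l = true := by rw [Wn, h.inU, h.inU, wn_iff]

/-- the place of a monomial -/
def plc (L : LD) (i e3 e4 : Nat) : Nat :=
  Nat.add (L.pos i) (Nat.add (Nat.mul (nat_lit 3) e3) e4)

def ml2 (j l : Nat) (acc : T3L) (p : Nat) : T3L := T3L.cons p j l acc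
def ml1 (L : LD) (i j l _ e3 e4 : Nat) (acc : T3L) : T3L := force (plc L i e3 e4) (ml2 j l acc)
/-- the monomials of the window: place, exponent of `v_1`, length -/
def ml (L : LD) (T : Nat) (c c' : CL) : T3L := enumA (wn c c') (ml1 L) L T T3L.nil

def mq1 (j l p j' l' : Nat) (_ : T3L) (ih : Nat → Nat) (acc : Nat) : Nat :=
  Bool.rec (motive := fun _ => Nat) (ih acc)
    (Bool.rec (motive := fun _ => Nat) (ih acc)
      (force (Nat.lor acc (Nat.shiftLeft (nat_lit 1) p)) ih) (Nat.ble l l')) (Nat.ble j j')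
def mq0 (acc : Nat) : Nat := acc
def mq (j l : Nat) (t : T3L) : Nat → Nat := T3L.rec (motive := fun _ => Nat → Nat) mq0 (mq1 j l) t
/-- the places of the monomials of the window above `(j, l)` -/
def mskJ (L : LD) (T : Nat) (c c' : CL) (j l : Nat) : Nat := mq j l (ml L T c c') (nat_lit 0)

/-- membership -/
def Mem3 (p j l : ℕ) : T3L → Prop
  | .nil => False
  | .cons a b c t => (p = a ∧ j = b ∧ l = c) ∨ Mem3 p j l t

theorem mq_bit (j l p : ℕ) (t : T3L) : ∀ acc, (mq j l t acc).testBit p = true ↔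
    acc.testBit p = true ∨ ∃ j' l', Mem3 p j' l' t ∧ j ≤ j' ∧ l ≤ l' := by
  induction t with
  | nil => exact fun acc => (or_iff_left fun ⟨_, _, h, _⟩ => h).symm
  | cons a b c t ih =>
    intro acc
    change (mq1 j l a b c t (mq j l t) acc).testBit p = true ↔ _
    have h0 : (∃ j' l', Mem3 p j' l' (.cons a b c t) ∧ j ≤ j' ∧ l ≤ l') ↔
        (p = a ∧ j ≤ b ∧ l ≤ c) ∨ ∃ j' l', Mem3 p j' l' t ∧ j ≤ j' ∧ l ≤ l' :=
      ⟨fun ⟨j', l', h, h'⟩ => h.elim (fun ⟨h1, h2, h3⟩ => Or.inl ⟨h1, h2 ▸ h3 ▸ h'⟩)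
        fun h => Or.inr ⟨j', l', h, h'⟩, fun h => h.elim
          (fun h => ⟨b, c, Or.inl ⟨h.1, rfl, rfl⟩, h.2⟩) fun ⟨j', l', h, h'⟩ =>
            ⟨j', l', Or.inr h, h'⟩⟩
    rw [h0, mq1, ← @Nat.ble_eq j, ← @Nat.ble_eq l]
    cases Nat.ble j b
    · simpa using ih acc
    cases Nat.ble l c
    · simpa using ih acc
    change (mq j l t (acc ||| 1 <<< a)).testBit p = true ↔ _
    rw [ih, Nat.testBit_or, Nat.one_shiftLeft, Nat.testBit_two_pow, Bool.or_eq_true,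
      decide_eq_true_iff, or_assoc, eq_comm (a := a)]
    simp

variable {L : LD} {T : ℕ} {c c' c₁ c₂ : CL}

theorem mskJ_bit (hT : T < 121) (j l p : ℕ) : (mskJ L T c c' j l).testBit p = true ↔
    ∃ i < L.n, ∃ J, wtM J + L.dg i = T ∧ Wn c c' J ∧ j ≤ J 0 ∧ l ≤ lenM J ∧
      p = L.pos i + pl J := by
  rw [mskJ, mq_bit, or_iff_right (by simp)]
  constructor
  · rintro ⟨j', l', h, h1, h2⟩
    revert h
    refine enumA_ind (Q := fun t : T3L => Mem3 p j' l' t → _) (fun h => h.elim)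
      fun i a b e2 e3 e4 t h3 h4 h5 h6 => ?_
    rcases h6 with ⟨rfl, rfl, rfl⟩ | h6
    · exact ⟨i, h3.1, _, h3.wt.1, (h3.wn c c').2 h4, by rwa [mk4_0], by rwa [h3.wt.2.1],
        by rw [h3.wt.2.2]; rfl⟩
    · exact h5 h6
  · rintro ⟨i, hi, J, h1, h2, h3, h4, rfl⟩
    obtain ⟨h5, h6⟩ := AdA.of hi hT h1
    exact ⟨_, _, enumA_cov (Q := fun t : T3L => Mem3 _ _ _ t) _ h5
      ((h5.wn c c').1 (h6.symm ▸ h2)) (fun _ => Or.inl ⟨rfl, rfl, rfl⟩)
      fun _ _ _ _ _ _ _ h => Or.inr h, h3, h4⟩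

variable {G G' : Type} [Fintype G] [Fintype G'] {L' : LD} {ix : G → ℕ} {ix' : G' → ℕ} {u : G → A}

/-- restriction to a part of a window -/
theorem mk_mskJ (hL : L.Ok ix) (hT : T ≤ L.T) {S : Mo → Prop} (hS : One S) {j l : ℕ}
    (hu : u ∈ HJ L ix T [(j, l)]) (h : ∀ J, Wn c c' J → j ≤ J 0 → l ≤ lenM J → S J) :
    mk (mskJ L T c c' j l) (cq L ix S u) = cq L ix (Wn c c') u :=
  mk_cq fun w J hJ => by
    have h1 := inU_one.1 (hu.2 w J hJ)
    have h2 := hL.hT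
    rw [mskJ_bit (by omega)]
    refine ⟨fun h3 => ⟨h J h3 h1.1 h1.2, _, hL.lt w, J, hu.1 w J hJ, h3, h1.1, h1.2, rfl⟩,
      fun ⟨h3, i, hi, J', h4, h5, h6, h7, h8⟩ => ?_⟩
    rwa [← one_eq hS hL hT (hL.lt w) hi (hu.1 w J hJ) h4 h8 h3 (h J' h5 h6 h7)]

theorem mk_msk0 (hL : L.Ok ix) (hT : T ≤ L.T) (hV : Vis c c' = true) (h : Le c' c₂ = true)
    (hu : u ∈ HJ L ix T c) :
    mk (mskJ L T c c₂ 0 0) (cq L ix (Wn c c') u) = cq L ix (Wn c c₂) u :=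
  mk_mskJ hL hT (Vis.one hV) ⟨hu.1, fun _ _ _ => inU_one.2 ⟨Nat.zero_le _, Nat.zero_le _⟩⟩
    fun _ h1 _ _ => ⟨h1.1, fun h2 => h1.2 (Le.InU h h2)⟩

variable [Fact (Nat.Prime 3)] {y : G → G' → Mo → A} {s3 s4 : ℕ} {r : Rw}

theorem StM.msk (h : StM y L ix L' ix' s3 s4 r) {F : Mo} (hT : T + wtM F ≤ L'.T) {w : G}
    {j l e2 e3 e4 : ℕ} (ha : AdA L T (ix w) j l e2 e3 e4) (hV : Vis c c' = true)
    (hc : inU c j l = true) :
    ((r.f (cd s3 s4 F) (ix w) e2 e3 e4).and (mskJ L' (T + wtM F) c c' j l)).R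
      (cq L' ix' (Wn c c') (dly y (monomial F 1) (bv w (mk4 j e2 e3 e4)))) := by
  have h1 := dly_HJ (c := [(j, l)]) h.hy (hg_mon F)
    (bv_memJ ha.wt.1 ((ha.inU _).2 (inU_one.2 ⟨le_rfl, le_rfl⟩)))
  obtain ⟨-, h2, rfl⟩ := ha
  rw [← mk_mskJ h.ok' hT (Vis.one (vis_one j (j + e2 + e3 + e4))) h1 fun J h3 h4 h5 =>
    ⟨inU_one.2 ⟨h4, h5⟩, fun h6 => h3.2 (inU_mono (Vis.inU hV hc (by omega)) (inU_one.1 h6).1
      (inU_one.1 h6).2)⟩]
  exact (h.row F w j e2 e3 e4 (by omega)).and _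

theorem StM.msk0 (h : StM y L ix L' ix' s3 s4 r) (hT : T ≤ L'.T) {w : G}
    {j l e2 e3 e4 : ℕ} (ha : AdA L T (ix w) j l e2 e3 e4) (hV : Vis c c' = true)
    (hc : inU c j l = true) : ((r.f 0 (ix w) e2 e3 e4).and (mskJ L' T c c' j l)).R
      (cq L' ix' (Wn c c') (dly y 1 (bv w (mk4 j e2 e3 e4)))) := by
  simpa [cd] using h.msk (F := 0) (by simpa using hT) ha hV hc

end Vale.Agent.P236J3

end
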