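import Vale.Agent.P236J3.Up
import Vale.Agent.P236JR.Crd

/-!
# P236J3 / Cq : coordinates in the window between two monomial ideals
-/

noncomputable section

namespace Vale.Agent.P236J3

open MvPolynomial Vale.Agent.P236EL Vale.Agent.P236KE Vale.Agent.P236K2 Vale.Agent.P236K3
  Vale.Agent.P236JF Vale.Agent.P236JR

variable {G : Type} [Fintype G] {L : LD} {ix : G → ℕ} {S S' : Mo → Prop} {u : G → A}
  {T : ℕ} {c c' c₁ c₂ : CL}

omit [Fintype G] in
theorem one_eq (hS : One S) (hL : L.Ok ix) (hT : T ≤ L.T) {i i' : ℕ} (hi : i < L.n)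
    (hi' : i' < L.n) {J J' : Mo} (h : wtM J + L.dg i = T) (h' : wtM J' + L.dg i' = T)
    (e : L.pos i + pl J = L.pos i' + pl J') (h1 : S J) (h2 : S J') : J' = J := by
  obtain rfl := hL.disj _ hi _ hi' _ (hL.pl_le hT h) _ (hL.pl_le hT h') e
  have h3 := hL.hT
  have h8 := wt_len (J := J) (by omega)
  have h9 := wt_len (J := J') (by omega)
  rw [pl, pl] at e
  have h4 : J 3 = J' 3 := by omega
  have h5 : J 2 = J' 2 := by omega
  have h10 := hS J J' h1 h2 h5 h4 (by omega) h8.2 h9.2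
  rw [eq_mk4 (show wtM J < 121 by omega), eq_mk4 (show wtM J' < 121 by omega), h4, h5, h10,
    show J 0 = J' 0 by omega]

/-- two representations of parts of a vector are merged -/
theorem cq_lor (hL : L.Ok ix) (hT : T ≤ L.T) (hu : Hm L ix T u) {S₁ S₂ : Mo → Prop}
    (hS : One S) (h : ∀ w J, coeff J (u w) ≠ 0 → (S J ↔ S₁ J ∨ S₂ J)) {x z : P}
    (hx : x.R (cq L ix S₁ u)) (hz : z.R (cq L ix S₂ u)) : (x.lor z).R (cq L ix S u) := fun p => by
  have key : ∀ S₀ : Mo → Prop, (∀ w J, coeff J (u w) ≠ 0 → S₀ J → S J) → ∀ w J,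
      coeff J (u w) ≠ 0 → S₀ J → cq L ix S₀ u (L.pos (ix w) + pl J) =
        cq L ix S u (L.pos (ix w) + pl J) := fun S₀ h0 w J h1 h2 => by
    rw [cq_at hL hT hu hS (hu w J h1) (h0 w J h1 h2), cq_congr (S' := fun J => S₀ J ∧ S J)
      fun w J h3 => (and_iff_left_of_imp (h0 w J h3)).symm,
      cq_at hL hT hu (hS.mono fun _ h => h.2) (hu w J h1) ⟨h2, h0 w J h1 h2⟩]
  have k1 := key S₁ fun w J h1 h2 => (h w J h1).2 (Or.inl h2)
  have k2 := key S₂ fun w J h1 h2 => (h w J h1).2 (Or.inr h2)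
  have a1 : cq L ix S₁ u p = 0 ∨ cq L ix S₁ u p = cq L ix S u p :=
    or_iff_not_imp_left.2 fun h1 => by
      obtain ⟨w, J, h2, h3, rfl⟩ := cq_ne h1
      exact k1 w J h2 h3
  have a2 : cq L ix S₂ u p = 0 ∨ cq L ix S₂ u p = cq L ix S u p :=
    or_iff_not_imp_left.2 fun h1 => by
      obtain ⟨w, J, h2, h3, rfl⟩ := cq_ne h1
      exact k2 w J h2 h3
  have a3 : cq L ix S u p = 0 ∨ cq L ix S₁ u p = cq L ix S u p ∨ cq L ix S₂ u p = cq L ix S u p :=
    or_iff_not_imp_left.2 fun h1 => by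
      obtain ⟨w, J, h2, h3, rfl⟩ := cq_ne h1
      exact ((h w J h2).1 h3).imp (k1 w J h2) (k2 w J h2)
  change (x.a ||| z.a).testBit p = _ ∧ (x.b ||| z.b).testBit p = _
  simp only [Nat.testBit_or, (hx p).1, (hx p).2, (hz p).1, (hz p).2]
  generalize cq L ix S₁ u p = a at a1 a3 ⊢
  generalize cq L ix S₂ u p = b at a2 a3 ⊢
  generalize cq L ix S u p = d at a1 a2 a3 ⊢
  revert a b d
  decide

/-- the window between two ideals -/
def Wn (c c' : CL) (J : Mo) : Prop := InU c J ∧ ¬ InU c' J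

theorem Vis.one (h : Vis c c' = true) : One (Wn c c') := by
  have key : ∀ J J' : Mo, InU c J → ¬ InU c' J' → J 2 = J' 2 → J 3 = J' 3 →
      J 0 + 4 * J 1 = J' 0 + 4 * J' 1 → lenM J = J 0 + J 1 + J 2 + J 3 →
      lenM J' = J' 0 + J' 1 + J' 2 + J' 3 → J 1 ≤ J' 1 := fun J J' h4 h5 _ _ _ _ _ =>
    not_lt.1 fun h6 => h5 (inU_mono (Vis.inU h h4 (le_len J)) (by omega) (by omega))
  exact fun J J' h1 h2 h3 h4 h5 h6 h7 => le_antisymm (key J J' h1.1 h2.2 h3 h4 h5 h6 h7)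
    (key J' J h2.1 h1.2 h3.symm h4.symm h5.symm h7 h6)

theorem Vis.le' (h : Vis c c' = true) (h1 : Le c₁ c = true) (h2 : Le c' c₂ = true) :
    Vis c₁ c₂ = true := List.all_eq_true.2 fun x hx =>
  Le.inU h2 (Vis.inU h (List.all_eq_true.1 h1 x hx) (le_max_left _ _))
    (Nat.add_le_add_right (le_max_left _ _) 3)

theorem Le.refl (c : CL) : Le c c = true := List.all_eq_true.2 fun x hx =>
  inU_iff.2 ⟨x, hx, le_rfl, le_max_right _ _⟩

theorem inU_one {a b j l : ℕ} : inU [(a, b)] j l = true ↔ a ≤ j ∧ b ≤ l := by simp [inU_iff]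

theorem vis_one (j l : ℕ) : Vis [(j, l)] [(j + 3, l + 3)] = true := by simp [Vis, inU_one]

theorem mem_of_cq (hL : L.Ok ix) (hT : T ≤ L.T) (hu : Hm L ix T u) (hV : Vis c c' = true)
    (ha : u ∈ ZA G (mI c)) (h : cq L ix (Wn c c') u = 0) : u ∈ ZA G (mI c') := fun w J hJ =>
  by_contra fun h1 => not_of_cq hL hT hu (Vis.one hV) h w J hJ ⟨ha w J hJ, h1⟩

theorem cq_Wn_zero (h : u ∈ ZA G (mI c')) : cq L ix (Wn c c') u = 0 :=
  cq_eq_zero fun w J hJ h1 => h1.2 (h w J hJ)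

theorem cq_Wn_cg (h : u ∈ ZA G (mI c)) (h' : u ∈ ZA G (mI c₁)) :
    cq L ix (Wn c c') u = cq L ix (Wn c₁ c') u :=
  cq_congr fun w J hJ => and_congr_left' (iff_of_true (h w J hJ) (h' w J hJ))

omit [Fintype G] in
theorem Hm.hz (h : P236K3.Hm L ix T u) : u ∈ HZ L ix T 0 := ⟨h, fun _ => by simp⟩

variable (L ix T c) in
/-- homogeneous vectors with entries in the ideal -/
def HJ : Submodule K (G → A) where
  carrier := {u | P236K3.Hm L ix T u ∧ u ∈ ZA G (mI c)}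
  zero_mem' := ⟨fun _ _ h => absurd rfl h, zero_mem _⟩
  add_mem' hu hv := ⟨((HZ L ix T 0).add_mem (Hm.hz hu.1) (Hm.hz hv.1)).1, add_mem hu.2 hv.2⟩
  smul_mem' k u hu := ⟨((HZ L ix T 0).smul_mem k (Hm.hz hu.1)).1, fun w => by
    rw [Pi.smul_apply, smul_eq_C_mul]
    exact Ideal.mul_mem_left _ _ (hu.2 w)⟩

omit [Fintype G] in
theorem HJ_mono (h : Le c c' = true) : HJ L ix T c ≤ HJ L ix T c' := fun _ hu =>
  ⟨hu.1, Rs.ZA_mono (Le.mI h) hu.2⟩

omit [Fintype G] in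
theorem bv_memJ {w : G} {J : Mo} (h : wtM J + L.dg (ix w) = T) (h' : InU c J) :
    bv w J ∈ HJ L ix T c :=
  ⟨fun _ _ h1 => by obtain ⟨rfl, rfl⟩ := bv_coeff h1; exact h,
    fun _ _ h1 => by obtain ⟨rfl, rfl⟩ := bv_coeff h1; exact h'⟩

theorem HJ_ind {M : Type} [AddCommGroup M] [Module K M] {N : Submodule K M}
    {f : (G → A) →ₗ[K] M}
    (h : ∀ w J, wtM J + L.dg (ix w) = T → InU c J → f (bv w J) ∈ N) (hu : u ∈ HJ L ix T c) :
    f u ∈ N := by
  classical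
  rw [← Finset.univ_sum_single u, map_sum]
  refine N.sum_mem fun w _ => ?_
  rw [(u w).as_sum, ← LinearMap.coe_single K (fun _ => A), map_sum, map_sum]
  refine N.sum_mem fun J hJ => ?_
  have h5 := N.smul_mem (coeff J (u w))
    (h w J (hu.1 w J (mem_support_iff.1 hJ)) (hu.2 w J (mem_support_iff.1 hJ)))
  rw [← map_smul, bv, ← Pi.single_smul, smul_monomial, smul_eq_mul, mul_one] at h5
  exact h5

omit [Fintype G] in
/-- no monomials of small weight -/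
theorem HJ_top (h : ∀ x ∈ c, T < x.2) (hu : u ∈ HJ L ix T c) : u = 0 :=
  funext fun w => MvPolynomial.ext _ _ fun J => by_contra fun h1 => by
    obtain ⟨x, hx, -, h2⟩ := inU_iff.1 (hu.2 w J h1)
    have h3 := hu.1 w J h1
    have h4 := h x hx
    have h5 : lenM J ≤ wtM J := by
      rw [lenM, wtM, Finsupp.weight_apply, Finsupp.weight_apply]
      exact Finset.sum_le_sum fun i _ => Nat.mul_le_mul_left _ (wt_pos 3 i)
    omega

variable [Fact (Nat.Prime 3)] {G' : Type} {L' : LD} {ix' : G' → ℕ} {y : G → G' → Mo → A}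

theorem dly_ZJ (g : Γ) (hu : u ∈ ZA G (mI c)) : dly y g u ∈ ZA G' (mI c) :=
  AddSubgroup.sum_mem _ fun w _ _ => rAp_mem (mem_map_C_iff.1 (Ideal.mul_mem_left _ _
    (inv_mI c (Ideal.mem_map_of_mem _ (hu w)))))

theorem dly_HJ (hy : ∀ w w', HomR 3 ((L.dg (ix w) : ℤ) - L'.dg (ix' w')) (y w w')) {g : Γ} {m : ℕ}
    (hg : Hg m g) (hu : u ∈ HJ L ix T c) : dly y g u ∈ HJ L' ix' (T + m) c :=
  ⟨(dly_HZ hy hg (Hm.hz hu.1)).1, dly_ZJ g hu.2⟩

theorem dly_v (g : Γ) (w : G) (a : ℕ) (J : Mo) : dly y g (bv w (Finsupp.single 0 a + J)) =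
    fun w' => monomial (Finsupp.single 0 a) 1 * dly y g (bv w J) w' := by
  have h : (monomial (Finsupp.single 0 a + J) 1 : A) = X 0 ^ a * monomial J 1 := by
    rw [X_pow_eq_monomial, monomial_mul, one_mul]
  rw [dly_bv, dly_bv, h, (etaR 3 K).map_mul, map_pow, eta_0, mul_left_comm, xv, ← map_pow,
    ← smul_eq_C_mul, map_smul, X_pow_eq_monomial]
  rfl

variable [Fintype G']

/-- a step of a complex with its rows: all places with small exponent of `v_1` or small length -/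
structure StM (y : G → G' → Mo → A) (L : LD) (ix : G → ℕ) (L' : LD) (ix' : G' → ℕ)
    (s3 s4 : ℕ) (r : Rw) : Prop where
  ok : L.Ok ix
  ok' : L'.Ok ix'
  hy : ∀ w w', HomR 3 ((L.dg (ix w) : ℤ) - L'.dg (ix' w')) (y w w')
  row : ∀ F w e1 e2 e3 e4, wtM F + (e1 + 4 * e2 + 13 * e3 + 40 * e4) + L.dg (ix w) ≤ L'.T →
    (r.f (cd s3 s4 F) (ix w) e2 e3 e4).R
      (cq L' ix' (Wn [(e1, e1 + e2 + e3 + e4)] [(e1 + 3, e1 + e2 + e3 + e4 + 3)])
        (dly y (monomial F 1) (bv w (mk4 e1 e2 e3 e4))))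

def mg0 (r r' : Rw) (c i e2 e3 e4 : Nat) : P := pf (P.lor (r.f c i e2 e3 e4) (r'.f c i e2 e3 e4))
/-- merged rows -/
def mg (r r' : Rw) : Rw := ⟨mg0 r r'⟩

omit [Fact (Nat.Prime 3)] in
theorem mk4_v (e1 e2 e3 e4 : ℕ) : mk4 e1 e2 e3 e4 = Finsupp.single 0 e1 + mk4 0 e2 e3 e4 := by
  simp [mk4, add_assoc]

/-- the old rows and the rows modulo the cube of `v_1` give the merged rows -/
theorem StM.of {s3 s4 : ℕ} {r r' : Rw} (h : St y L ix L' ix' s3 s4 r)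
    (h' : ∀ F w e2 e3 e4, wtM F + (4 * e2 + 13 * e3 + 40 * e4) + L.dg (ix w) ≤ L'.T →
      (r'.f (cd s3 s4 F) (ix w) e2 e3 e4).R
        (cq L' ix' (lo 3) (dly y (monomial F 1) (bv w (mk4 0 e2 e3 e4))))) :
    StM y L ix L' ix' s3 s4 (mg r r') := by
  refine ⟨h.ok, h.ok', h.hy, fun F w e1 e2 e3 e4 hT => ?_⟩
  have h1 := h.row F w e1 e2 e3 e4 hT
  have h2 := h' F w e2 e3 e4 (by omega)
  have h3 := dly_HJ (c := [(e1, e1 + e2 + e3 + e4)]) h.hy (hg_mon F)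
    (bv_memJ (w := w) (J := mk4 e1 e2 e3 e4) rfl (inU_one.2 ⟨(mk4_0 ..).ge, by
      rw [lenM, weight_mk4]; omega⟩))
  rw [ps_apply, ← dly_bv, cr_eq_cq] at h1
  have h4 : cq L' ix' (lo (e1 + 3)) (dly y (monomial F 1) (bv w (mk4 e1 e2 e3 e4))) =
      cq L' ix' (lo 3) (dly y (monomial F 1) (bv w (mk4 0 e2 e3 e4))) := by
    rw [mk4_v e1, dly_v, cq_mul, pl_0, sh_zero]
    exact cq_congr fun _ J _ => by simp [lo]
  rw [← h4] at h2
  refine cq_lor h.ok' (by rw [wtM, weight_wt_mk4]; omega) h3.1 (Vis.one (vis_one _ _))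
    (fun w' J hJ => ?_) h1 h2
  have h5 := inU_one.1 (h3.2 w' J hJ)
  simp only [Wn, InU, inU_one, win, lo]
  omega

end Vale.Agent.P236J3

end
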