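import Vale.Agent.P236J3.Bas

/-!
# P236J3 / Main : the checks in a window
-/

noncomputable section

namespace Vale.Agent.P236J3

open MvPolynomial Vale.Agent.P236EL Vale.Agent.P236KE Vale.Agent.P236K2 Vale.Agent.P236K3
  Vale.Agent.P236JF Vale.Agent.P236JR

def rj2 (r : Rw) (O i e2 e3 e4 : Nat) (acc : PL) (m : Nat) : PL :=
  PL.cons (P.shl (P.and (r.f (nat_lit 0) i e2 e3 e4) m) O) acc
def rj1 (r : Rw) (L' : LD) (T : Nat) (c c' : CL) (O i j l e2 e3 e4 : Nat) (acc : PL) : PL :=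
  force (mskJ L' T c c' j l) (rj2 r O i e2 e3 e4 acc)
/-- the rows of the monomials of the window -/
def rowsJ (r : Rw) (L L' : LD) (T : Nat) (c c' : CL) (rest : PL) (O : Nat) : PL :=
  enumA (wn c c') (rj1 r L' T c c' O) L T rest

def pkJ (c c1 c2 : CL) (j l : Nat) : Bool :=
  Bool.rec (motive := fun _ => Bool) (inU c j l) (wn c c1 j l) (inU c2 j l)
def rk3 (O : Nat) (x : P) (acc : PL) (p : Nat) : PL := PL.cons (P.add x (P.shl (un p) O)) acc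
def rk2 (r : Rw) (L : LD) (c2 : CL) (O i j l e2 e3 e4 : Nat) (acc : PL) (m : Nat) : PL :=
  Bool.rec (motive := fun _ => PL)
    (force (plc L i e3 e4) (rk3 O (P.and (r.f (nat_lit 0) i e2 e3 e4) m) acc))
    (PL.cons (P.and (r.f (nat_lit 0) i e2 e3 e4) m) acc) (inU c2 j l)
def rk1 (r : Rw) (L L' : LD) (T : Nat) (c c1 c2 : CL) (O i j l e2 e3 e4 : Nat) (acc : PL) : PL :=
  force (mskJ L' T c c1 j l) (rk2 r L c2 O i j l e2 e3 e4 acc)
/-- the rows together with the coordinates of the monomials -/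
def rowsKJ (r : Rw) (L L' : LD) (T : Nat) (c c1 c2 : CL) (O : Nat) : PL :=
  enumA (pkJ c c1 c2) (rk1 r L L' T c c1 c2 O) L T PL.nil

def kge (R : PL) (W W0 : Nat) (E : Lp) (t : Tb) : Bool := procL E W0 (redZ E t) tt R (tb0 W)
def kgd (R B : Nat → PL) (O N W W0 : Nat) : Bool :=
  procL (lp W N) W noF (kge (R O) W W0 (lp W N)) (B O) (tb0 W)
def kgc (R B : Nat → PL) (O N W : Nat) : Bool :=
  force (Nat.shiftLeft (nat_lit 1) O) (kgd R B O N W)
def kgb (R B : Nat → PL) (O N : Nat) : Bool :=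
  force (Nat.shiftLeft (nat_lit 1) (Nat.sub N (nat_lit 1))) (kgc R B O N)
def kga (R B : Nat → PL) (L : LD) (O : Nat) : Bool := force (Nat.succ (Nat.add O L.N)) (kgb R B O)
/-- combinations of the rows `R` without low places lie in the span of the rows `B` -/
def kg (R B : Nat → PL) (L L' : LD) : Bool := force L'.N (kga R B L)

theorem kg_spec {R B : ℕ → PL} {L L' : LD} {S₁ : Sub} (hR : ∀ x, (R L'.N).Mem x → ∃ v, x.R v)
    (hB : ∀ x, (B L'.N).Mem x → ∃ v ∈ S₁, x.R v) (hc : kg R B L L' = true) :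
    ∃ S : Sub, (∀ x v, (R L'.N).Mem x → x.R v → v ∈ S) ∧
      ∀ v ∈ S, (∀ q < L'.N, v q = 0) → v ∈ S₁ := by
  rw [kg, force_eq, kga, force_eq, kgb, force_eq, kgc, force_eq, kgd,
    show Nat.shiftLeft (nat_lit 1) (Nat.sub (Nat.add L'.N L.N).succ (nat_lit 1)) =
      2 ^ (L'.N + L.N) from Nat.one_shiftLeft _,
    show Nat.shiftLeft (nat_lit 1) L'.N = 2 ^ L'.N from Nat.one_shiftLeft _] at hc
  obtain ⟨t, S, h1, -, h2, -, h3⟩ := procL_spec (SB := ⊥) le_rfl noF_spec hB (inv_tb0 _ _ _)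
    bot_le hc
  rw [kge] at h3
  obtain ⟨t', S', h4, -, -, h5, -⟩ := procL_spec (SB := S) (S₁ := ⊤) (Nat.le_add_right _ _)
    (redZ_spec h1.rows) (fun x hx => (hR x hx).imp fun _ h => ⟨trivial, h⟩) (inv_tb0 _ _ _)
    bot_le h3
  exact ⟨S', h5, fun v hv h => h2 (h4.low v hv h)⟩

theorem pkJ_iff {c c1 c2 : CL} {j l : ℕ} : pkJ c c1 c2 j l = true ↔
    inU c j l = true ∧ ¬ (inU c1 j l = true ∧ inU c2 j l = true) := by
  rw [pkJ]
  cases inU c2 j l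
  · simp
  · simpa using wn_iff

variable [Fact (Nat.Prime 3)] {G G' : Type} [Fintype G] [Fintype G'] {L L' : LD} {ix : G → ℕ}
  {ix' : G' → ℕ} {y : G → G' → Mo → A} {s3 s4 : ℕ} {r : Rw} {T O : ℕ} {c c' c1 c2 cb : CL}

theorem rowsJ_mem (h : StM y L ix L' ix' s3 s4 r) (hT : T ≤ L'.T) (hV : Vis c c' = true)
    {rest : PL} {x : P} (hx : (rowsJ r L L' T c c' rest O).Mem x) : rest.Mem x ∨
      ∃ z ∈ HJ L ix T c, x.R (sh O (cq L' ix' (Wn c c') (dly y 1 z))) := by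
  revert hx
  refine enumA_ind (Q := fun l : PL => l.Mem x → _) Or.inl fun i j l e2 e3 e4 t h1 hp h2 h3 => ?_
  obtain ⟨w, rfl⟩ := h.ok.sur i h1.1
  rcases h3 with rfl | h3
  · exact Or.inr ⟨_, bv_memJ h1.wt.1 ((h1.inU c).2 (wn_iff.1 hp).1),
      (h.msk0 hT h1 hV (wn_iff.1 hp).1).shl O⟩
  · exact h2 h3

theorem rowsJ_cov (h : StM y L ix L' ix' s3 s4 r) (hT : T ≤ L'.T) (hV : Vis c c' = true)
    (rest : PL) {w : G} {J : Mo} (h1 : wtM J + L.dg (ix w) = T) (h2 : Wn c c' J) :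
    ∃ x, (rowsJ r L L' T c c' rest O).Mem x ∧
      x.R (sh O (cq L' ix' (Wn c c') (dly y 1 (bv w J)))) := by
  obtain ⟨h3, h4⟩ := AdA.of (h.ok.lt w) (by have := h.ok'.hT; omega) h1
  have h5 := (h.msk0 hT h3 hV h2.1).shl O
  rw [h4] at h5
  exact ⟨_, enumA_cov (Q := fun l : PL => l.Mem _) rest h3 (wn_iff.2 h2) (fun _ => Or.inl rfl)
    fun _ _ _ _ _ _ _ h => Or.inr h, h5⟩

/-- the row with the coordinate -/
def rkP (r : Rw) (L : LD) (c2 : CL) (O i j l e2 e3 e4 m : ℕ) : P :=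
  Bool.rec (motive := fun _ => P)
    (P.add (P.and (r.f 0 i e2 e3 e4) m) (P.shl (un (plc L i e3 e4)) O))
    (P.and (r.f 0 i e2 e3 e4) m) (inU c2 j l)

omit [Fact (Nat.Prime 3)] in
theorem rk1_eq (i j l e2 e3 e4 : ℕ) (acc : PL) : rk1 r L L' T c c1 c2 O i j l e2 e3 e4 acc =
    PL.cons (rkP r L c2 O i j l e2 e3 e4 (mskJ L' T c c1 j l)) acc := by
  rw [rk1, force_eq, rk2, rkP]
  cases inU c2 j l <;> rfl

theorem rkP_R (h : StM y L ix L' ix' s3 s4 r) (hT : T ≤ L'.T) (hV : Vis c c1 = true) {w : G}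
    {j l e2 e3 e4 : ℕ} (h1 : AdA L T (ix w) j l e2 e3 e4) (h2 : inU c j l = true) :
    (rkP r L c2 O (ix w) j l e2 e3 e4 (mskJ L' T c c1 j l)).R
      (((cq L' ix' (Wn c c1)).comp (dly y 1) + (sh O).comp (cq L ix (Wn c c2)))
        (bv w (mk4 j e2 e3 e4))) := by
  rw [LinearMap.add_apply, LinearMap.comp_apply, LinearMap.comp_apply, rkP]
  cases h3 : inU c2 j l
  · rw [cq_bv _ ⟨(h1.inU c).2 h2, fun h4 => by rw [h1.inU, h3] at h4; cases h4⟩, h1.wt.2.2]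
    exact (h.msk0 hT h1 hV h2).add ((un_R _).shl O)
  · rw [cq_Wn_zero (bv_memJ h1.wt.1 ((h1.inU c2).2 h3)).2, map_zero, add_zero]
    exact h.msk0 hT h1 hV h2

theorem gen_spec (h : StM y L ix L' ix' s3 s4 r) (hT : T ≤ L.T) (hT' : T ≤ L'.T)
    (hV : Vis c c1 = true) (hb : Le c cb = true) (hV' : Vis cb c2 = true)
    {B : Submodule K (G → A)} (hB : B ≤ HJ L ix T cb) {lB : ℕ → PL}
    (hl : ∀ x, (lB L'.N).Mem x → ∃ b ∈ B, x.R (sh L'.N (cq L ix (Wn cb c2) b)))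
    (hc : kg (rowsKJ r L L' T c c1 c2) lB L L' = true) {u : G → A} (hu : u ∈ HJ L ix T c)
    (hd : dly y 1 u ∈ ZA G' (mI c1)) : ∃ b ∈ B, u - b ∈ ZA G (mI c2) := by
  obtain ⟨S, h1, h2⟩ := kg_spec (S₁ := B.map ((sh L'.N).comp (cq L ix (Wn cb c2))))
    (fun x => enumA_ind (Q := fun l : PL => l.Mem x → ∃ v, x.R v) (a := PL.nil) nofun
      fun i j l e2 e3 e4 t h1 hp h2 h3 => by
        obtain ⟨w, rfl⟩ := h.ok.sur i h1.1
        rw [rk1_eq] at h3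
        rcases h3 with rfl | h3
        · exact ⟨_, rkP_R h hT' hV h1 (pkJ_iff.1 hp).1⟩
        · exact h2 h3)
    (fun x hx => by obtain ⟨b, hb, h1⟩ := hl x hx; exact ⟨_, ⟨b, hb, rfl⟩, h1⟩) hc
  have h6 : ((cq L' ix' (Wn c c1)).comp (dly y 1) + (sh L'.N).comp (cq L ix (Wn c c2))) u ∈ S :=
    HJ_ind (fun w J h3 h4 => by
      by_cases h5 : InU c1 J ∧ InU c2 J
      · rw [LinearMap.add_apply, LinearMap.comp_apply, LinearMap.comp_apply,
          cq_Wn_zero (dly_ZJ 1 (bv_memJ h3 h5.1).2), cq_Wn_zero (bv_memJ h3 h5.2).2, map_zero,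
          add_zero]
        exact S.zero_mem
      obtain ⟨h7, h8⟩ := AdA.of (h.ok.lt w) (by have := h.ok.hT; omega) h3
      have h9 := rkP_R (c2 := c2) (O := L'.N) h hT' hV h7 h4
      rw [h8] at h9
      exact h1 _ _ (enumA_cov (Q := fun l : PL => l.Mem _) _ h7 (pkJ_iff.2 ⟨h4, h5⟩)
        (fun _ => by rw [rk1_eq]; exact Or.inl rfl)
        fun _ _ _ _ _ _ _ h => by rw [rk1_eq]; exact Or.inr h) h9) hu
  rw [LinearMap.add_apply, LinearMap.comp_apply, LinearMap.comp_apply, cq_Wn_zero hd,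
    zero_add] at h6
  obtain ⟨b, hb', h7⟩ := h2 _ h6 fun q hq => by rw [sh_apply, if_neg (by omega)]
  have h8 : u - b ∈ HJ L ix T cb := sub_mem (HJ_mono hb hu) (hB hb')
  refine ⟨b, hb', mem_of_cq h.ok hT h8.1 hV' h8.2 ?_⟩
  rw [map_sub, cq_Wn_cg (HJ_mono hb hu).2 hu.2]
  funext p
  have h9 := congrFun h7 (p + L'.N)
  simp only [LinearMap.comp_apply, sh_apply, if_pos (Nat.le_add_left _ _), Nat.add_sub_cancel] at h9
  rw [Pi.sub_apply, h9, sub_self, Pi.zero_apply]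

/-- representation of a vector in a window -/
structure VPJ (L : LD) (ix : G → ℕ) (T : ℕ) (c c' : CL) (x : P) (u : G → A) : Prop where
  hz : u ∈ HJ L ix T c
  r : x.R (cq L ix (Wn c c') u)

/-- rows of boundaries and of a list -/
def lBJ (r : Rw) (L L' : LD) (T : Nat) (c c' : CL) (l : PL) (O : Nat) : PL :=
  rowsJ r L L' T c c' (shL l O) O

theorem lBJ_mem (h : StM y L ix L' ix' s3 s4 r) (hT : T ≤ L'.T) (hV : Vis c c' = true)
    {S : Submodule K (G' → A)} {l : PL} (hl : ∀ x, l.Mem x → ∃ φ ∈ S, VPJ L' ix' T c c' x φ)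
    (x : P) (hx : (lBJ r L L' T c c' l O).Mem x) :
    ∃ z ∈ HJ L' ix' T c ⊓ (S ⊔ (HJ L ix T c).map (dly y 1)),
      x.R (sh O (cq L' ix' (Wn c c') z)) := by
  rcases rowsJ_mem h hT hV hx with hx | ⟨z, hz, hx⟩
  · obtain ⟨z, hz, rfl⟩ := shL_mem hx
    obtain ⟨φ, h1, h2⟩ := hl z hz
    exact ⟨φ, ⟨h2.hz, Submodule.mem_sup_left h1⟩, h2.r.shl O⟩
  · exact ⟨_, ⟨dly_HJ h.hy (m := 0) (SetLike.one_mem_graded (ext 3 (WA 3 K))) hz,
      Submodule.mem_sup_right ⟨z, hz, rfl⟩⟩, hx⟩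

theorem noB_specJ (h : StM y L ix L' ix' s3 s4 r) (hT' : T ≤ L'.T) (hV : Vis c c' = true)
    {x : P} {u : G' → A} (hx : VPJ L' ix' T c c' x u) {b : Bool}
    (hc : noS L' (rowsJ r L L' T c c' PL.nil 0) x b = true) : b = true ∧
      ∀ z ∈ HJ L ix T c, u - dly y 1 z ∉ ZA G' (mI c') := by
  obtain ⟨h1, h2⟩ := noS_spec (fun z hz => by
    rcases rowsJ_mem h hT' hV hz with hz | ⟨z, -, hz⟩
    · exact hz.elim
    · exact ⟨_, hz⟩) hx.r hc
  refine ⟨h1, fun z hz h3 => h2 ((HJ L ix T c).map ((cq L' ix' (Wn c c')).comp (dly y 1)))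
    (fun S' hS => ?_) ⟨z, hz, ?_⟩⟩
  · rintro _ ⟨z, hz, rfl⟩
    refine HJ_ind (fun w J h4 h5 => ?_) hz
    by_cases h8 : InU c' J
    · rw [LinearMap.comp_apply, cq_Wn_zero (dly_ZJ 1 (bv_memJ h4 h8).2)]
      exact S'.zero_mem
    · obtain ⟨x, h9, h10⟩ := rowsJ_cov (O := 0) h hT' hV PL.nil h4 ⟨h5, h8⟩
      rw [sh_zero] at h10
      exact hS _ _ h9 h10
  · have h4 := cq_Wn_zero (L := L') (ix := ix') (c := c) h3
    rw [map_sub, sub_eq_zero] at h4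
    exact h4.symm

end Vale.Agent.P236J3

end
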