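import Vale.Agent.P236J3.Top

/-!
# P236J3 / No : non-membership modulo the span of a list
-/

noncomputable section

namespace Vale.Agent.P236K3.KD

open Vale.Agent.P236KE Vale.Agent.P236J3

variable (D : KD)

def nl2 (s T : Nat) (c c' : CL) (l : PL) (x : P) : Bool :=
  noS (D.L s) (D.bdJ s T c c' l (nat_lit 0)) x true
def nl1 (s T : Nat) (c c' : CL) (v : VC) (l : PL) : Bool := v.run (D.nl2 s T c c' l)
/-- the vector is not a boundary modulo the span of a list -/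
def noL (s T : Nat) (c c' : CL) (l : List VC) (v : VC) : Bool := runL l (D.nl1 s T c c' v)

end Vale.Agent.P236K3.KD

namespace Vale.Agent.P236J3

open MvPolynomial Vale.Agent.P236EL Vale.Agent.P236KE Vale.Agent.P236K2 Vale.Agent.P236K3
  Vale.Agent.P236JF Vale.Agent.P236JR

section

variable {G : Type} [Fintype G] {L : LD} {ix : G → ℕ} {T : ℕ} {c c' : CL}

theorem runL_cov {l : List VC} {φ : List (G → A)} (h : List.Forall₂ (VRJ L ix T c c') l φ)
    {k : PL → Bool} (hk : runL l k = true) :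
    ∃ l' : PL, (∀ x, l'.Mem x → ∃ u ∈ φ, VPJ L ix T c c' x u) ∧
      (∀ u ∈ φ, ∃ x, l'.Mem x ∧ VPJ L ix T c c' x u) ∧ k l' = true := by
  induction h generalizing k with
  | nil => exact ⟨PL.nil, fun _ h => False.elim h, nofun, hk⟩
  | cons h _ ih =>
    obtain ⟨x, h1, h2⟩ := h.run _ hk
    obtain ⟨l', h3, h5, h4⟩ := ih h2
    refine ⟨_, fun z hz => ?_, fun u hu => ?_, h4⟩
    · rcases hz with rfl | hz
      · exact ⟨_, List.mem_cons_self, h.hz, h1⟩
      · exact (h3 z hz).imp fun _ h => ⟨List.mem_cons_of_mem _ h.1, h.2⟩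
    · rcases List.mem_cons.1 hu with rfl | hu
      · exact ⟨x, Or.inl rfl, h.hz, h1⟩
      · exact (h5 u hu).imp fun _ h => ⟨Or.inr h.1, h.2⟩

theorem shL_cov {l : PL} {O : ℕ} {x : P} (h : l.Mem x) : (shL l O).Mem (x.shl O) := by
  induction l with
  | nil => exact h.elim
  | cons z l ih => exact Or.imp (congrArg (P.shl · O)) ih h

theorem rowsJ_rest {r : Rw} {L' : LD} {O : ℕ} {rest : PL} {x : P} (h : rest.Mem x) :
    (rowsJ r L L' T c c' rest O).Mem x :=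
  enumA_ind (Q := fun l : PL => l.Mem x) h fun _ _ _ _ _ _ _ _ _ h => Or.inr h

end

variable [Fact (Nat.Prime 3)] {G : ℕ → Type} [∀ q, Fintype (G q)] {R : Rs 3 K G} {o w : ℤ}
  {Q Tm s3 s4 : ℕ} {D : KD} {ix : ∀ q, G (q + 1) → ℕ} {s T : ℕ} {c c' : CL} {l : List VC}
  {φ : List (G (s + 1) → A)} {S : AddSubgroup (G (s + 1) → A)} {v : VC} {u : G (s + 1) → A}

/-- **non-membership modulo the span of a list** -/
theorem CxJ.noL (h : CxJ R o Q Tm s3 s4 D ix) (hs : s ≤ Q) (hw : w = T + o) (hT : T ≤ Tm)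
    (hV : Vis c c' = true) (hl : List.Forall₂ (VRJ (D.L s) (ix s) T c c') l φ)
    (hS : S ≤ AddSubgroup.closure {u | u ∈ φ}) (hv : VRJ (D.L s) (ix s) T c c' v u)
    (hc : D.noL s T c c' l v = true) : u ∉ S ⊔ R.BdJ s w (mI c) (mI c') := fun hu => by
  obtain ⟨l', h1, h2, h3⟩ := runL_cov hl hc
  obtain ⟨x, h4, h5⟩ := hv.run _ h3
  rw [KD.nl2] at h5
  refine (noS_spec (fun z hz => ?_) h4 h5).2 ((AddSubgroup.toZModSubmodule 3
    (S ⊔ R.BdJ s w (mI c) (mI c'))).map (cq (D.L s) (ix s) (Wn c c'))) (fun S' hS' => ?_)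
    ⟨u, hu, rfl⟩
  · obtain ⟨z, -, h6⟩ := h.bd_mem (S := ⊤) hs hw hT hV
      (fun x hx => (h1 x hx).imp fun u h => ⟨trivial, h.2⟩) _ z hz
    exact ⟨_, h6⟩
  rw [Submodule.map_le_iff_le_comap]
  change S ⊔ R.BdJ s w (mI c) (mI c') ≤
    (S'.comap (cq (D.L s) (ix s) (Wn c c'))).toAddSubgroup
  refine sup_le (hS.trans ((AddSubgroup.closure_le _).2 fun z hz => ?_))
    (sup_le ?_ fun z hz => ?_)
  · obtain ⟨x, h6, h7⟩ := h2 z hz
    refine hS' (x.shl 0) _ ?_ (sh_zero _ ▸ h7.r.shl 0)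
    rcases s with _ | q
    · exact shL_cov h6
    · exact rowsJ_rest (shL_cov h6)
  · rintro _ ⟨z, hz, rfl⟩
    rcases s with _ | q
    · exact zero_mem _
    · rw [← Rs.dl_one, ← dly_eq]
      refine HJ_ind (f := (cq (D.L (q + 1)) (ix (q + 1)) (Wn c c')).comp (dly (R.y q) 1))
        (fun g J h6 h7 => ?_) ((h.pa hw).1 hz)
      by_cases h8 : InU c' J
      · rw [LinearMap.comp_apply, cq_Wn_zero (dly_ZJ 1 (bv_memJ h6 h8).2)]
        exact S'.zero_mem
      · obtain ⟨x, h9, h10⟩ := rowsJ_cov (O := 0) (h.st q hs) ((h.hT _).symm ▸ hT) hV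
          (shL l' 0) h6 ⟨h7, h8⟩
        rw [sh_zero] at h10
        exact hS' _ _ h9 h10
  · change cq _ _ _ z ∈ S'
    rw [cq_Wn_zero hz]
    exact S'.zero_mem

end Vale.Agent.P236J3

end
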