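import Vale.Agent.P236J3.VR

/-!
# P236J3 / Top : the finite statements about small complexes, for arbitrary windows
-/

noncomputable section

namespace Vale.Agent.P236K3.KD

open Vale.Agent.P236KE Vale.Agent.P236J3

variable (D : KD)

def bj1 (s T : Nat) (c c' : CL) (l : PL) (q : Nat) : Nat → PL := lBJ (D.r q) (D.L q) (D.L s) T c c' l
/-- rows of boundaries and of the list -/
def bdJ (s T : Nat) (c c' : CL) (l : PL) : Nat → PL :=
  Nat.rec (motive := fun _ => Nat → PL) (shL l) (fun q _ => D.bj1 s T c c' l q) s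
def gj2 (s T : Nat) (c c1 cb c2 : CL) (s' : Nat) (l : PL) : Bool :=
  kg (rowsKJ (D.r s) (D.L s) (D.L s') T c c1 c2) (D.bdJ s T cb c2 l) (D.L s) (D.L s')
def gj1 (s T : Nat) (c c1 cb c2 : CL) (l : List VC) (s' : Nat) : Bool :=
  runL l (D.gj2 s T c c1 cb c2 s')
/-- the general check -/
def genJ (s T : Nat) (c c1 cb c2 : CL) (l : List VC) : Bool :=
  force (Nat.succ s) (D.gj1 s T c c1 cb c2 l)
def ij2 (s T : Nat) (c c' : CL) (l : PL) (x : P) : Bool :=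
  inS (D.L s) (D.bdJ s T c c' l (nat_lit 0)) x true
def ij1 (s T : Nat) (c c' : CL) (v : VC) (l : PL) : Bool := v.run (D.ij2 s T c c' l)
/-- membership in the boundaries modulo the span of a list -/
def inJ (s T : Nat) (c c' : CL) (l : List VC) (v : VC) : Bool := runL l (D.ij1 s T c c' v)
def nj2 (s T : Nat) (c c' : CL) (x : P) (q : Nat) : Bool :=
  noS (D.L s) (rowsJ (D.r q) (D.L q) (D.L s) T c c' PL.nil (nat_lit 0)) x true
def nj1 (s T : Nat) (c c' : CL) (x : P) : Bool :=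
  Nat.rec (motive := fun _ => Bool) (noS (D.L s) PL.nil x true) (fun q _ => D.nj2 s T c c' x q) s
/-- the vector is not a boundary -/
def noJ (s T : Nat) (c c' : CL) (v : VC) : Bool := v.run (D.nj1 s T c c')
/-- twisted differentials -/
def dlJ (q q' k T T' : Nat) (c c' : CL) (v : VC) : VC :=
  P236J3.dlJ (D.r q) (D.L q) (D.L q') k T T' c c' v
/-- restriction -/
def reJ (s T : Nat) (c c' : CL) (v : VC) : VC := P236J3.reJ (D.L s) T c c' v
/-- the vector vanishes in the window `c`, `c'` -/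
def isZJ (s T : Nat) (c c' : CL) (v : VC) : Bool := (D.reJ s T c c' v).run iz

end Vale.Agent.P236K3.KD

namespace Vale.Agent.P236J3

open MvPolynomial Vale.Agent.P236EL Vale.Agent.P236KE Vale.Agent.P236K2 Vale.Agent.P236K3
  Vale.Agent.P236JF Vale.Agent.P236JR

variable [Fact (Nat.Prime 3)] {G : ℕ → Type} [∀ q, Fintype (G q)]

/-- the data describe the complex in homological degrees less than `Q` -/
structure CxJ (R : Rs 3 K G) (o : ℤ) (Q Tm s3 s4 : ℕ) (D : KD) (ix : ∀ q, G (q + 1) → ℕ) :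
    Prop where
  st : ∀ q < Q, StM (R.y q) (D.L q) (ix q) (D.L (q + 1)) (ix (q + 1)) s3 s4 (D.r q)
  ok : ∀ q, (D.L q).Ok (ix q)
  deg : ∀ q w, R.deg (q + 1) w = (D.L q).dg (ix q w) + o
  hT : ∀ q, (D.L q).T = Tm

namespace CxJ

variable {R : Rs 3 K G} {o w : ℤ} {Q Tm s3 s4 : ℕ} {D : KD} {ix : ∀ q, G (q + 1) → ℕ}
  (h : CxJ R o Q Tm s3 s4 D ix) {s T : ℕ} {c c' c1 c2 cb : CL} {l : List VC}
  {φ : List (G (s + 1) → A)} {S : AddSubgroup (G (s + 1) → A)} {v : VC} {u : G (s + 1) → A}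

include h

theorem pa (hw : w = T + o) : u ∈ PA 3 (R.deg (s + 1)) w (mI c) ↔ u ∈ HJ (D.L s) (ix s) T c :=
  hw ▸ mem_PA_iff (h.deg s)

theorem bd_mem (hs : s ≤ Q) (hw : w = T + o) (hT : T ≤ Tm) (hV : Vis c c' = true) {l : PL}
    (hl : ∀ x, l.Mem x → ∃ u ∈ S, VPJ (D.L s) (ix s) T c c' x u) (O : ℕ) (x : P)
    (hx : (D.bdJ s T c c' l O).Mem x) : ∃ z ∈ HJ (D.L s) (ix s) T c ⊓
      AddSubgroup.toZModSubmodule 3 (S ⊔ R.BdJ s w (mI c) (mI c')),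
        x.R (sh O (cq (D.L s) (ix s) (Wn c c') z)) := by
  rcases s with _ | q
  · obtain ⟨z, hz, rfl⟩ := shL_mem hx
    obtain ⟨u, h1, h2⟩ := hl z hz
    exact ⟨u, ⟨h2.hz, AddSubgroup.mem_sup_left h1⟩, h2.r.shl O⟩
  · obtain ⟨z, h1, h2⟩ := lBJ_mem (S := AddSubgroup.toZModSubmodule 3 S) (h.st q hs)
      ((h.hT _).symm ▸ hT) hV hl x hx
    refine ⟨z, ⟨h1.1, ?_⟩, h2⟩
    obtain ⟨u, hu, _, ⟨y, hy, rfl⟩, rfl⟩ := Submodule.mem_sup.1 h1.2
    refine AddSubgroup.add_mem_sup hu (AddSubgroup.mem_sup_left ⟨y, (h.pa hw).2 hy, ?_⟩)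
    rw [dly_eq, Rs.dl_one]

/-- **the general check** -/
theorem gen (hs : s < Q) (hw : w = T + o) (hT : T ≤ Tm) (hV : Vis c c1 = true)
    (hb : Le c cb = true) (hV' : Vis cb c2 = true)
    (hl : List.Forall₂ (VRJ (D.L s) (ix s) T cb c2) l φ) (hS : ∀ u ∈ φ, u ∈ S)
    (hc : D.genJ s T c c1 cb c2 l = true) :
    R.CyJ s w (mI c) (mI c1) ≤ S ⊔ R.BdJ s w (mI cb) (mI c2) := fun u hu => by
  rw [KD.genJ, force_eq, KD.gj1] at hc
  obtain ⟨l', h1, h2⟩ := runL_specJ hl hc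
  rw [KD.gj2] at h2
  obtain ⟨z, h3, h4⟩ := gen_spec (h.st s hs) ((h.hT _).symm ▸ hT) ((h.hT _).symm ▸ hT) hV hb hV'
    inf_le_left (h.bd_mem hs.le hw hT hV' (fun x hx => (h1 x hx).imp fun u h => ⟨hS u h.1, h.2⟩) _)
    h2 ((h.pa hw).1 hu.1) (by rw [dly_eq, Rs.dl_one]; exact hu.2)
  rw [← add_sub_cancel z u]
  exact add_mem h3.2 (AddSubgroup.mem_sup_right (Rs.mem_BdJ_of_ZA h4))

/-- no monomials in the ideal -/
theorem top (hw : w = T + o) (hc : ∀ x ∈ c, T < x.2) (hu : u ∈ PA 3 (R.deg (s + 1)) w (mI c)) :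
    u = 0 := HJ_top hc ((h.pa hw).1 hu)

/-- **membership** -/
theorem inB (hs : s ≤ Q) (hw : w = T + o) (hT : T ≤ Tm) (hV : Vis c c' = true)
    (hl : List.Forall₂ (VRJ (D.L s) (ix s) T c c') l φ) (hS : ∀ u ∈ φ, u ∈ S)
    (hv : VRJ (D.L s) (ix s) T c c' v u) (hc : D.inJ s T c c' l v = true) :
    u ∈ S ⊔ R.BdJ s w (mI c) (mI c') := by
  obtain ⟨l', h1, h2⟩ := runL_specJ hl hc
  obtain ⟨x, h3, h4⟩ := hv.run _ h2
  rw [KD.ij2] at h4
  obtain ⟨-, z, hz, h5⟩ := inS_spec (S := (HJ (D.L s) (ix s) T c ⊓ AddSubgroup.toZModSubmodule 3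
    (S ⊔ R.BdJ s w (mI c) (mI c'))).map (cq (D.L s) (ix s) (Wn c c'))) (fun z hz => by
      obtain ⟨z, h1, h2⟩ := h.bd_mem hs hw hT hV
        (fun x hx => (h1 x hx).imp fun u h => ⟨hS u h.1, h.2⟩) _ z hz
      exact ⟨_, ⟨z, h1, rfl⟩, sh_zero _ ▸ h2⟩) h3 h4
  have h6 := sub_mem hv.hz hz.1
  rw [← add_sub_cancel z u]
  exact add_mem hz.2 (AddSubgroup.mem_sup_right (Rs.mem_BdJ_of_ZA (mem_of_cq (h.ok s)
    ((h.hT _).symm ▸ hT) h6.1 hV h6.2 (by rw [map_sub, h5, sub_self]))))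

theorem inB' (hs : s ≤ Q) (hw : w = T + o) (hT : T ≤ Tm) (hV : Vis c c' = true)
    (hv : VRJ (D.L s) (ix s) T c c' v u) (hc : D.inJ s T c c' [] v = true) :
    u ∈ R.BdJ s w (mI c) (mI c') := by
  simpa using h.inB (S := ⊥) hs hw hT hV List.Forall₂.nil (fun _ h => nomatch h) hv hc

/-- **non-membership** -/
theorem noB (hs : s ≤ Q) (hw : w = T + o) (hT : T ≤ Tm) (hV : Vis c c' = true)
    (hv : VRJ (D.L s) (ix s) T c c' v u) (hc : D.noJ s T c c' v = true) :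
    u ∉ R.BdJ s w (mI c) (mI c') := fun hu => by
  obtain ⟨x, h1, h2⟩ := hv.run _ hc
  obtain ⟨z, h3, h4⟩ := Rs.mem_BdJ.1 hu
  rcases s with _ | q
  · refine (noS_spec (L := D.L 0) (l := PL.nil) (fun _ h => False.elim h) h1 h2).2 ⊥
      (fun _ _ => bot_le) ?_
    rw [show R.sd 0 z = 0 from rfl, sub_zero] at h4
    exact cq_Wn_zero h4
  · change D.nj2 (q + 1) T c c' x q = true at h2
    rw [KD.nj2] at h2
    refine (noB_specJ (h.st q hs) ((h.hT _).symm ▸ hT) hV ⟨hv.hz, h1⟩ h2).2 z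
      ((h.pa hw).1 h3) ?_
    rwa [dly_eq, Rs.dl_one]

/-- **vanishing in a window** -/
theorem isZ (hT : T ≤ Tm) (hV : Vis c c' = true) (hn : Le c' c2 = true)
    (hv : VRJ (D.L s) (ix s) T c c' v u) (hc : D.isZJ s T c c2 v = true) : u ∈ ZA _ (mI c2) :=
  hv.isZ (h.ok s) ((h.hT _).symm ▸ hT) hV hn hc

theorem dl (F : Mo) {k T' s' : ℕ} (hq : s < Q) (hk : cd s3 s4 F = k) (hT' : T + wtM F = T')
    (hs : s + 1 = s') (hT : T' ≤ Tm) (hV : Vis c c' = true) (hv : VRJ (D.L s) (ix s) T c c' v u) :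
    VRJ (D.L (s + 1)) (ix (s + 1)) T' c c' (D.dlJ s s' k T T' c c' v)
      (R.dl s (monomial F 1) u) := by
  subst hk hT' hs
  rw [← dly_eq]
  exact hv.dl (h.st s hq) F ((h.hT _).symm ▸ (Nat.le_add_right _ _).trans hT) ((h.hT _).symm ▸ hT)
    hV

theorem sd {s' : ℕ} (hq : s < Q) (hs : s + 1 = s') (hT : T ≤ Tm) (hV : Vis c c' = true)
    (hv : VRJ (D.L s) (ix s) T c c' v u) :
    VRJ (D.L (s + 1)) (ix (s + 1)) T c c' (D.dlJ s s' 0 T T c c' v) (R.sd (s + 1) u) :=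
  R.dl_one s u ▸ h.dl 0 hq (by simp [cd]) (by simp) hs hT hV hv

theorem re (hT : T ≤ Tm) (hV : Vis c c' = true) (h1 : Le c c1 = true) (h2 : Le c' c2 = true)
    (hv : VRJ (D.L s) (ix s) T c c' v u) : VRJ (D.L s) (ix s) T c1 c2 (D.reJ s T c c2 v) u :=
  hv.re (h.ok s) ((h.hT _).symm ▸ hT) hV h1 h2

/-- **cycles** -/
theorem cy {s' : ℕ} (hq : s < Q) (hw : w = T + o) (hs : s + 1 = s') (hT : T ≤ Tm)
    (hV : Vis c c' = true) (hn : Le c' c2 = true) (hv : VRJ (D.L s) (ix s) T c c' v u)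
    (hc : D.isZJ s' T c c2 (D.dlJ s s' 0 T T c c' v) = true) : u ∈ R.CyJ s w (mI c) (mI c2) := by
  subst hs
  exact ⟨(h.pa hw).2 hv.hz, h.isZ hT hV hn (h.sd hq rfl hT hV hv) hc⟩

end CxJ

def mK1 (D D' : KD) (q : Nat) : Rw := mg (D.r q) (D'.r q)
/-- merged data: the layouts and the old rows of `D`, the new rows of `D'` -/
def mK (D D' : KD) : KD := ⟨D.L, mK1 D D'⟩

/-- the merged data describe the complex -/
theorem CxJ.of {R : Rs 3 K G} {o : ℤ} {Q Tm s3 s4 : ℕ} {D D' : KD} {ix : ∀ q, G (q + 1) → ℕ}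
    (h : Cx R o Tm s3 s4 D ix) (h' : ∀ q < Q, ∀ F w e2 e3 e4,
      wtM F + (4 * e2 + 13 * e3 + 40 * e4) + (D.L q).dg (ix q w) ≤ (D.L (q + 1)).T →
      ((D'.r q).f (cd s3 s4 F) (ix q w) e2 e3 e4).R (cq (D.L (q + 1)) (ix (q + 1)) (lo 3)
        (dly (R.y q) (monomial F 1) (bv w (mk4 0 e2 e3 e4))))) :
    CxJ R o Q Tm s3 s4 (mK D D') ix :=
  ⟨fun q hq => StM.of (h.st q) (h' q hq), fun q => (h.st q).ok, h.deg, h.hT⟩

end Vale.Agent.P236J3

end
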