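import Vale.Agent.P236K3.Top
import Vale.Agent.P236JF.Defs

/-!
# P236J3 / Up : monomial ideals given by lists of corners
-/

noncomputable section

namespace Vale.Agent.P236EL.Rs

open MvPolynomial

variable {p : ℕ} [hp : Fact p.Prime] {L : Type} [CommRing L] {G : ℕ → Type} [∀ q, Fintype (G q)]
  (R : Rs p L G)

/-- small cochains in `K` whose differential lies in `K'` -/
def CyJ (s : ℕ) (w : ℤ) (K K' : Ideal (AA L)) : AddSubgroup (G (s + 1) → AA L) :=
  PA p (R.deg (s + 1)) w K ⊓ (ZA _ K').comap (R.sd (s + 1))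

/-- differentials of small cochains in `K`, modulo `K'` -/
def BdJ (s : ℕ) (w : ℤ) (K K' : Ideal (AA L)) : AddSubgroup (G (s + 1) → AA L) :=
  (PA p (R.deg s) w K).map (R.sd s) ⊔ ZA _ K'

variable {R} {s : ℕ} {w : ℤ} {K K' K₁ K₁' : Ideal (AA L)} {u : G (s + 1) → AA L}

theorem Cy_eq (k n : ℕ) : R.Cy s w k n = R.CyJ s w (II p L ^ k) (II p L ^ n) := rfl
theorem Bd_eq (k n : ℕ) : R.Bd s w k n = R.BdJ s w (II p L ^ k) (II p L ^ n) := rfl

theorem mem_CyJ : u ∈ R.CyJ s w K K' ↔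
    u ∈ PA p (R.deg (s + 1)) w K ∧ R.sd (s + 1) u ∈ ZA _ K' := Iff.rfl

theorem mem_BdJ : u ∈ R.BdJ s w K K' ↔
    ∃ y ∈ PA p (R.deg s) w K, u - R.sd s y ∈ ZA _ K' := by
  rw [BdJ, AddSubgroup.mem_sup]
  constructor
  · rintro ⟨_, ⟨y, hy, rfl⟩, z, hz, rfl⟩
    exact ⟨y, hy, by rwa [add_sub_cancel_left]⟩
  · rintro ⟨y, hy, h⟩
    exact ⟨_, ⟨y, hy, rfl⟩, _, h, add_sub_cancel _ _⟩

theorem BdJ_mono (h : K ≤ K₁) (h' : K' ≤ K₁') : R.BdJ s w K K' ≤ R.BdJ s w K₁ K₁' :=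
  sup_le_sup (AddSubgroup.map_mono (PA_mono h)) (ZA_mono h')

theorem CyJ_mono (h : K ≤ K₁) (h' : K' ≤ K₁') : R.CyJ s w K K' ≤ R.CyJ s w K₁ K₁' :=
  inf_le_inf (PA_mono h) (AddSubgroup.comap_mono (ZA_mono h'))

theorem mem_BdJ_of_ZA (h : u ∈ ZA _ K') : u ∈ R.BdJ s w K K' := AddSubgroup.mem_sup_right h

end Vale.Agent.P236EL.Rs

namespace Vale.Agent.P236J3

open MvPolynomial Vale.Agent.P236EL Vale.Agent.P236KE Vale.Agent.P236K2 Vale.Agent.P236K3
  Vale.Agent.P236JF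

/-- lists of corners: a lower bound for the exponent of `v_1` and a lower bound for the length -/
abbrev CL : Type := List (ℕ × ℕ)

def inU1 (j l : Nat) (x : Nat × Nat) (_ : CL) (ih : Bool) : Bool :=
  Bool.rec (motive := fun _ => Bool) ih
    (Bool.rec (motive := fun _ => Bool) ih true (Nat.ble x.2 l)) (Nat.ble x.1 j)
/-- the pair lies above one of the corners -/
def inU (c : CL) (j l : Nat) : Bool := List.rec (motive := fun _ => Bool) false (inU1 j l) c

variable {c c' c₁ : CL} {j l j' l' : ℕ}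

theorem inU_iff : inU c j l = true ↔ ∃ x ∈ c, x.1 ≤ j ∧ x.2 ≤ l := by
  induction c with
  | nil => simp [inU]
  | cons x c ih =>
    change inU1 j l x c (inU c j l) = true ↔ _
    rw [inU1, List.exists_mem_cons_iff, ← ih, ← Nat.ble_eq, ← Nat.ble_eq]
    cases Nat.ble x.1 j <;> cases Nat.ble x.2 l <;> simp

theorem inU_mono (h : inU c j l = true) (h1 : j ≤ j') (h2 : l ≤ l') : inU c j' l' = true := by
  obtain ⟨x, hx, h3, h4⟩ := inU_iff.1 h
  exact inU_iff.2 ⟨x, hx, h3.trans h1, h4.trans h2⟩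

theorem len_add (J J' : ℕ →₀ ℕ) : lenM (J + J') = lenM J + lenM J' := map_add _ _ _

theorem len_single (i a : ℕ) : lenM (Finsupp.single i a) = a := by
  rw [lenM, Finsupp.weight_single, smul_eq_mul, mul_one]

theorem le_len (J : ℕ →₀ ℕ) : J 0 ≤ lenM J := by
  have h := len_add (Finsupp.single 0 (J 0)) (J.erase 0)
  rw [Finsupp.single_add_erase, len_single] at h
  omega

/-- the monomial lies in the ideal -/
def InU (c : CL) (J : ℕ →₀ ℕ) : Prop := inU c (J 0) (lenM J) = true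

/-- the ideal given by a list of corners -/
def mI (c : CL) : Ideal A where
  carrier := {a | ∀ J, coeff J a ≠ 0 → InU c J}
  zero_mem' _ h := absurd rfl h
  add_mem' {a b} ha hb J h := by
    by_cases h1 : coeff J a = 0
    · exact hb J fun h2 => h (by rw [coeff_add, h1, h2, add_zero])
    · exact ha J h1
  smul_mem' b a ha J h := by
    classical
    rw [smul_eq_mul, coeff_mul] at h
    obtain ⟨x, hx, h1⟩ := Finset.exists_ne_zero_of_sum_ne_zero h
    rw [← Finset.HasAntidiagonal.mem_antidiagonal.1 hx]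
    exact inU_mono (ha _ (right_ne_zero_of_mul h1)) (Nat.le_add_left _ _)
      (by rw [len_add]; exact Nat.le_add_left _ _)

theorem mem_mI {a : A} : a ∈ mI c ↔ ∀ J, coeff J a ≠ 0 → InU c J := Iff.rfl

theorem mem_of_mon {M : Ideal A} {a : A} (h : ∀ J, coeff J a ≠ 0 → monomial J (1 : K) ∈ M) :
    a ∈ M := by
  rw [a.as_sum]
  refine M.sum_mem fun J hJ => ?_
  rw [← mul_one (coeff J a), ← zero_add J, ← monomial_mul, zero_add]
  exact M.mul_mem_left _ (h J (mem_support_iff.1 hJ))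

theorem mon_mem_mI {J : ℕ →₀ ℕ} (h : InU c J) (k : K) : monomial J k ∈ mI c := fun J' h1 => by
  classical
  rw [coeff_monomial] at h1
  rwa [← show J = J' from by_contra fun h2 => h1 (if_neg h2)]

/-- every monomial above a corner of `c` lies above a corner of `c'` -/
def Le (c c' : CL) : Bool := c.all fun x => inU c' x.1 (max x.1 x.2)

/-- the multiples by the cube of `v_1` -/
def Vis (c c' : CL) : Bool := c.all fun x => inU c' (x.1 + 3) (max x.1 x.2 + 3)

theorem Le.inU (h : Le c c' = true) (h1 : inU c j l = true) (h2 : j ≤ l) : inU c' j l = true := by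
  obtain ⟨x, hx, h3, h4⟩ := inU_iff.1 h1
  exact inU_mono (List.all_eq_true.1 h x hx) h3 (max_le (h3.trans h2) h4)

theorem Vis.inU (h : Vis c c' = true) (h1 : inU c j l = true) (h2 : j ≤ l) :
    inU c' (j + 3) (l + 3) = true := by
  obtain ⟨x, hx, h3, h4⟩ := inU_iff.1 h1
  exact inU_mono (List.all_eq_true.1 h x hx) (by omega)
    (Nat.add_le_add_right (max_le (h3.trans h2) h4) 3)

theorem Le.InU (h : Le c c' = true) {J : ℕ →₀ ℕ} (h1 : InU c J) : InU c' J :=
  Le.inU h h1 (le_len J)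

theorem Le.mI (h : Le c c' = true) : mI c ≤ mI c' := fun _ ha J hJ => Le.InU h (ha J hJ)

theorem mI_pow (k : ℕ) : mI [(0, k)] = I ^ k :=
  Ideal.ext fun _ => by simp only [mem_mI, mem_I_pow, InU, inU_iff]; simp

theorem mI_top : mI [(0, 0)] = ⊤ := by rw [mI_pow, pow_zero, Ideal.one_eq_top]

theorem mI_nil : mI [] = ⊥ :=
  eq_bot_iff.2 fun _ ha => MvPolynomial.ext _ _ fun J => by_contra fun h =>
    Bool.noConfusion (ha J h)

theorem mI_append (c c' : CL) : mI (c ++ c') = mI c ⊔ mI c' := by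
  refine le_antisymm (fun a ha => mem_of_mon fun J hJ => ?_) (sup_le (fun a ha J hJ => ?_)
    fun a ha J hJ => ?_)
  · obtain ⟨x, hx, h⟩ := inU_iff.1 (ha J hJ)
    rcases List.mem_append.1 hx with hx | hx
    · exact Ideal.mem_sup_left (mon_mem_mI (inU_iff.2 ⟨x, hx, h⟩) 1)
    · exact Ideal.mem_sup_right (mon_mem_mI (inU_iff.2 ⟨x, hx, h⟩) 1)
  · obtain ⟨x, hx, h⟩ := inU_iff.1 (ha J hJ)
    exact inU_iff.2 ⟨x, List.mem_append_left _ hx, h⟩
  · obtain ⟨x, hx, h⟩ := inU_iff.1 (ha J hJ)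
    exact inU_iff.2 ⟨x, List.mem_append_right _ hx, h⟩

/-- the corners of the multiples by a power of `v_1` -/
def upC (a : ℕ) (c : CL) : CL := c.map fun x => (x.1 + a, x.2 + a)

theorem inU_upC {a : ℕ} : inU (upC a c) (j + a) (l + a) = true ↔ inU c j l = true := by
  simp only [inU_iff, upC, List.mem_map]
  exact ⟨by rintro ⟨_, ⟨x, hx, rfl⟩, h1, h2⟩; exact ⟨x, hx, by omega, by omega⟩,
    fun ⟨x, hx, h1, h2⟩ => ⟨_, ⟨x, hx, rfl⟩, by omega, by omega⟩⟩

theorem InU_upC {a : ℕ} {J : ℕ →₀ ℕ} : InU (upC a c) (Finsupp.single 0 a + J) ↔ InU c J := by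
  rw [InU, len_add, len_single, Finsupp.add_apply, Finsupp.single_eq_same, add_comm a,
    add_comm a, inU_upC, InU]

theorem coeff_v (a : ℕ) (J : ℕ →₀ ℕ) (z : A) :
    coeff (Finsupp.single 0 a + J) (X 0 ^ a * z) = coeff J z := by
  rw [X_pow_eq_monomial, coeff_monomial_mul, one_mul]

theorem coeff_v_ne {a : ℕ} {J : ℕ →₀ ℕ} {z : A} (h : coeff J (X 0 ^ a * z) ≠ 0) :
    ∃ J', J = Finsupp.single 0 a + J' ∧ coeff J' z ≠ 0 := by
  classical
  rw [X_pow_eq_monomial, coeff_monomial_mul'] at h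
  split_ifs at h with h1
  · exact ⟨_, (add_tsub_cancel_of_le h1).symm, right_ne_zero_of_mul h⟩
  · exact absurd rfl h

theorem v_mul_mem_iff {a : ℕ} {z : A} : X 0 ^ a * z ∈ mI (upC a c) ↔ z ∈ mI c :=
  ⟨fun h J hJ => InU_upC.1 (h _ (by rwa [coeff_v])), fun h J hJ => by
    obtain ⟨J', rfl, h1⟩ := coeff_v_ne hJ
    exact InU_upC.2 (h _ h1)⟩

theorem mI_upC (a : ℕ) (c : CL) : mI (upC a c) = Ideal.span {X 0 ^ a} * mI c := by
  refine le_antisymm (fun x hx => mem_of_mon fun J hJ => ?_) (Ideal.mul_le.2 fun r hr z hz => ?_)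
  · have h := hx J hJ
    obtain ⟨_, h1, h2, -⟩ := inU_iff.1 h
    obtain ⟨y, -, rfl⟩ := List.mem_map.1 h1
    have h3 : J = Finsupp.single 0 a + (J - Finsupp.single 0 a) :=
      (add_tsub_cancel_of_le (Finsupp.single_le_iff.2 (by omega))).symm
    rw [h3] at h ⊢
    rw [← one_mul (1 : K), ← monomial_mul, ← X_pow_eq_monomial]
    exact Ideal.mul_mem_mul (Ideal.mem_span_singleton_self _) (mon_mem_mI (InU_upC.1 h) 1)
  · obtain ⟨s, rfl⟩ := Ideal.mem_span_singleton'.1 hr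
    rw [mul_assoc]
    exact Ideal.mul_mem_left _ _ (v_mul_mem_iff.2 hz)

/-- division by a power of `v_1` -/
theorem mem_upC {a : ℕ} {x : A} : x ∈ mI (upC a c) ↔ ∃ z ∈ mI c, X 0 ^ a * z = x := by
  rw [mI_upC, Ideal.mem_span_singleton_mul]

theorem mI_single (a b : ℕ) : mI [(a, b)] = Ideal.span {X 0 ^ a} * I ^ (b - a) := by
  rw [← mI_pow, ← mI_upC]
  exact le_antisymm (Le.mI (by simp [Le, upC, inU_iff]; omega))
    (Le.mI (by simp [Le, upC, inU_iff]; omega))

theorem mI_v (a : ℕ) : mI [(a, 0)] = Ideal.span {X 0 ^ a} := by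
  rw [mI_single, Nat.zero_sub, pow_zero, mul_one]

theorem Jr_K (r : ℕ) : Jr K r = Ideal.span {X 0 ^ r} := by
  have h : ((3 : ℕ) : A) = 0 := by
    rw [← map_natCast (C : K →+* A), show ((3 : ℕ) : K) = 0 from rfl, map_zero]
  rw [Jr, h, Ideal.span_insert, Ideal.span_singleton_eq_bot.2 rfl, bot_sup_eq]

theorem mI_mul_Jr (r : ℕ) (c : CL) : mI c * Jr K r = mI (upC r c) := by
  rw [Jr_K, mI_upC, mul_comm]

theorem Vis.le (h : Vis c c' = true) : mI (upC 3 c) ≤ mI c' := fun x hx J hJ => by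
  obtain ⟨z, hz, rfl⟩ := mem_upC.1 hx
  obtain ⟨J', rfl, h1⟩ := coeff_v_ne hJ
  rw [InU, len_add, len_single, Finsupp.add_apply, Finsupp.single_eq_same, add_comm 3, add_comm 3]
  exact Vis.inU h (hz _ h1) (le_len _)

theorem Vis.mul (h : Vis c c' = true) : mI c * Jr K 3 ≤ mI c' := mI_mul_Jr 3 c ▸ Vis.le h

variable [Fact (Nat.Prime 3)]

theorem inv_v (a : ℕ) : P236EL.Inv 3 (Ideal.span {(X 0 ^ a : A)}) := by
  rw [P236EL.Inv, Ideal.map_span, Ideal.map_span, Set.image_singleton, Set.image_singleton, map_pow,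
    map_pow, eta_0, xv]

theorem inv_mI (c : CL) : P236EL.Inv 3 (mI c) := by
  induction c with
  | nil => exact mI_nil ▸ inv_bot
  | cons x c ih =>
    rw [← List.singleton_append, mI_append, mI_single]
    exact ((inv_v _).mul (inv_II.pow _)).sup ih

end Vale.Agent.P236J3

end
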