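import Vale.Agent.P236J3.Main

/-!
# P236J3 / VR : computations with vectors in a window
-/

noncomputable section

namespace Vale.Agent.P236J3

open MvPolynomial Vale.Agent.P236EL Vale.Agent.P236KE Vale.Agent.P236K2 Vale.Agent.P236K3
  Vale.Agent.P236JF Vale.Agent.P236JR

def re2 (k : P → Bool) (x : P) (m : Nat) : Bool := pr k (P.and x m)
def re1 (L : LD) (T : Nat) (c c' : CL) (k : P → Bool) (x : P) : Bool :=
  force (mskJ L T c c' (nat_lit 0) (nat_lit 0)) (re2 k x)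
/-- restriction to the window `c`, `c'` -/
def reJ (L : LD) (T : Nat) (c c' : CL) (v : VC) : VC := ⟨fun k => v.run (re1 L T c c' k)⟩

def iz (x : P) : Bool := zc true x.a x.b

def dj7 (r : Rw) (k i e2 e3 e4 : Nat) (kk : KK) (x z : P) (p t m : Nat) : Bool :=
  pr (dl7 kk (P.add z (P.sm t (P.and (r.f k i e2 e3 e4) m)))) (P.add x (P.neg (P.sm t (un p))))
def dj6 (r : Rw) (L' : LD) (k T' : Nat) (c c' : CL) (i j l e2 e3 e4 : Nat) (kk : KK) (x z : P)
    (p t : Nat) : Bool :=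
  Bool.rec (motive := fun _ => Bool)
    (force (mskJ L' T' c c' j l) (dj7 r k i e2 e3 e4 kk x z p t))
    (kk.f x z) (Nat.beq t (nat_lit 0))
def dj5 (r : Rw) (L' : LD) (k T' : Nat) (c c' : CL) (i j l e2 e3 e4 : Nat) (kk : KK) (x z : P)
    (p : Nat) : Bool :=
  force (Nat.add (Nat.land (Nat.shiftRight x.a p) (nat_lit 1))
    (Nat.mul (nat_lit 2) (Nat.land (Nat.shiftRight x.b p) (nat_lit 1))))
    (dj6 r L' k T' c c' i j l e2 e3 e4 kk x z p)
def dj4 (r : Rw) (L L' : LD) (k T' : Nat) (c c' : CL) (i j l e2 e3 e4 : Nat) (kk : KK) (x z : P) :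
    Bool := force (plc L i e3 e4) (dj5 r L' k T' c c' i j l e2 e3 e4 kk x z)
def dj3 (r : Rw) (L L' : LD) (k T' : Nat) (c c' : CL) (i j l e2 e3 e4 : Nat) (kk : KK) : KK :=
  ⟨dj4 r L L' k T' c c' i j l e2 e3 e4 kk⟩
def djS (r : Rw) (L L' : LD) (k T T' : Nat) (c c' : CL) (f : P → Bool) (x : P) : Bool :=
  (enumA (wn c c') (dj3 r L L' k T' c c') L T ⟨dlE f⟩).f x P.zero
/-- the twisted differential -/
def dlJ (r : Rw) (L L' : LD) (k T T' : Nat) (c c' : CL) (v : VC) : VC :=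
  ⟨fun f => v.run (djS r L L' k T T' c c' f)⟩

/-- the corners of the multiples by a monomial with `v_1`-exponent `a` and length `b` -/
def shC (a b : ℕ) (c : CL) : CL := c.map fun x => (x.1 + a, x.2 + b)

theorem inU_shC {a b j l : ℕ} {c : CL} :
    inU (shC a b c) (j + a) (l + b) = true ↔ inU c j l = true := by
  simp only [inU_iff, shC, List.mem_map]
  exact ⟨by rintro ⟨_, ⟨x, hx, rfl⟩, h1, h2⟩; exact ⟨x, hx, by omega, by omega⟩,
    fun ⟨x, hx, h1, h2⟩ => ⟨_, ⟨x, hx, rfl⟩, by omega, by omega⟩⟩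

theorem InU_shC {M J : Mo} {c : CL} : InU (shC (M 0) (lenM M) c) (M + J) ↔ InU c J := by
  rw [InU, len_add, Finsupp.add_apply, add_comm (M 0), add_comm (lenM M), inU_shC, InU]

theorem mon_mul_mem (M : Mo) {c : CL} {a : A} (h : a ∈ mI c) :
    monomial M 1 * a ∈ mI (shC (M 0) (lenM M) c) := fun J hJ => by
  classical
  rw [coeff_monomial_mul'] at hJ
  split_ifs at hJ with h1
  · rw [← add_tsub_cancel_of_le h1]
    exact InU_shC.2 (h _ (right_ne_zero_of_mul hJ))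
  · exact absurd rfl hJ

variable {G G' : Type} [Fintype G] [Fintype G'] {L L' : LD} {ix : G → ℕ} {ix' : G' → ℕ}
  {T : ℕ} {c c' c₁ c₂ : CL} {v w : VC} {u u' : G → A}

/-- the computation gives the coordinates of `u` -/
structure VRJ (L : LD) (ix : G → ℕ) (T : ℕ) (c c' : CL) (v : VC) (u : G → A) : Prop where
  hz : u ∈ HJ L ix T c
  run : ∀ k, v.run k = true → ∃ x, x.R (cq L ix (Wn c c') u) ∧ k x = true

namespace VRJ

theorem zero : VRJ L ix T c c' VC.zero 0 :=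
  ⟨zero_mem _, fun _ h => ⟨_, by rw [map_zero]; exact P.R_zero, h⟩⟩

theorem mon (g : G) {J : Mo} (h : wtM J + L.dg (ix g) = T) (h1 : Wn c c' J) :
    VRJ L ix T c c' (VC.mon L (ix g) (J 2) (J 3)) (bv g J) :=
  ⟨bv_memJ h h1.1, fun _ hk => ⟨_, by rw [cq_bv g h1]; exact un_R _, hk⟩⟩

theorem add (h : VRJ L ix T c c' v u) (h' : VRJ L ix T c c' w u') :
    VRJ L ix T c c' (v.add w) (u + u') := ⟨add_mem h.hz h'.hz, fun k hk => by
  obtain ⟨x, h1, h2⟩ := h.run _ hk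
  obtain ⟨z, h3, h4⟩ := h'.run _ h2
  exact ⟨_, by rw [map_add]; exact h1.add h3, h4⟩⟩

theorem map {T' : ℕ} {f : P → P} (h : VRJ L ix T c c' v u) (h1 : u' ∈ HJ L ix T' c₁)
    (h2 : ∀ x, x.R (cq L ix (Wn c c') u) → (f x).R (cq L ix (Wn c₁ c₂) u')) :
    VRJ L ix T' c₁ c₂ (v.map f) u' := ⟨h1, fun k hk => by
  obtain ⟨x, h3, h4⟩ := h.run _ hk
  exact ⟨_, h2 x h3, h4⟩⟩

theorem neg (h : VRJ L ix T c c' v u) : VRJ L ix T c c' v.neg (-u) :=
  h.map (neg_mem h.hz) fun _ hx => by rw [map_neg]; exact hx.neg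

theorem sm (n : ℕ) (h : VRJ L ix T c c' v u) : VRJ L ix T c c' (v.sm n) (n • u) :=
  h.map (nsmul_mem h.hz n) fun _ hx => by
    rw [map_nsmul, ← Nat.cast_smul_eq_nsmul K]
    exact P.R.sm n fun _ => hx

theorem mul (M : Mo) (h : VRJ L ix T c c' v u) :
    VRJ L ix (T + wtM M) (shC (M 0) (lenM M) c) (shC (M 0) (lenM M) c') (v.shl (pl M))
      fun g => monomial M 1 * u g := by
  refine h.map ⟨(hm_iff (o := 0) fun w => (add_zero _).symm).2 fun g => ?_,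
    fun g => mon_mul_mem M (h.hz.2 g)⟩ fun x hx => ?_
  · have h1 := SetLike.mul_mem_graded (A := WA 3 K) (isWeightedHomogeneous_monomial (wz 3) M 1 rfl)
      ((hm_iff (o := 0) fun w => (add_zero _).symm).1 h.hz.1 g)
    rwa [show wz 3 = fun i => (wt 3 i : ℤ) from rfl, weight_cast, show ((wtM M : ℕ) : ℤ) +
      (T + 0 - L.dg (ix g)) = (T + wtM M : ℕ) + 0 - L.dg (ix g) by omega] at h1
  · rw [cq_mul, cq_congr (S' := Wn c c') fun _ _ _ => by rw [Wn, Wn, InU_shC, InU_shC]]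
    exact hx.shl _

theorem low (h : VRJ L ix T c c' v u) (h1 : Le c c₁ = true) : VRJ L ix T c₁ c' v u :=
  ⟨HJ_mono h1 h.hz, fun k hk => by
    rw [cq_Wn_cg (HJ_mono h1 h.hz).2 h.hz.2]
    exact h.run k hk⟩

theorem up (h : VRJ L ix T c c' v u) (h1 : u ∈ ZA G (mI c₁)) : VRJ L ix T c₁ c' v u :=
  ⟨⟨h.hz.1, h1⟩, fun k hk => by
    rw [cq_Wn_cg h1 h.hz.2]
    exact h.run k hk⟩

theorem re (hL : L.Ok ix) (hT : T ≤ L.T) (hV : Vis c c' = true) (h : VRJ L ix T c c' v u)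
    (h1 : Le c c₁ = true) (h2 : Le c' c₂ = true) : VRJ L ix T c₁ c₂ (reJ L T c c₂ v) u :=
  low ⟨h.hz, fun k hk => by
    obtain ⟨x, h3, h4⟩ := h.run _ hk
    exact ⟨_, mk_msk0 hL hT hV h2 h.hz ▸ h3.and _, h4⟩⟩ h1

theorem isZ' (hL : L.Ok ix) (hT : T ≤ L.T) (hV : Vis c c' = true) (h : VRJ L ix T c c' v u)
    (hk : v.run iz = true) : u ∈ ZA G (mI c') := by
  obtain ⟨x, h2, h3⟩ := h.run _ hk
  exact mem_of_cq hL hT h.hz.1 hV h.hz.2 (rp_eq_zero h2 (zc_spec h3).2)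

theorem isZ (hL : L.Ok ix) (hT : T ≤ L.T) (hV : Vis c c' = true) (h : VRJ L ix T c c' v u)
    (h1 : Le c' c₂ = true) (hk : (reJ L T c c₂ v).run iz = true) : u ∈ ZA G (mI c₂) :=
  (h.re hL hT hV (Le.refl c) h1).isZ' hL hT (Vis.le' hV (Le.refl c) h1) hk

/-- changing the vector below the window -/
theorem congr (h : VRJ L ix T c c' v u) (h1 : u' ∈ HJ L ix T c) (h2 : u' - u ∈ ZA G (mI c')) :
    VRJ L ix T c c' v u' := ⟨h1, fun k hk => by
  have h3 := cq_Wn_zero (L := L) (ix := ix) (c := c) h2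
  rw [map_sub, sub_eq_zero] at h3
  rw [h3]
  exact h.run k hk⟩

variable [Fact (Nat.Prime 3)] {y : G → G' → Mo → A} {s3 s4 : ℕ} {r : Rw}

theorem dl (H : StM y L ix L' ix' s3 s4 r) (F : Mo) (hT : T ≤ L.T) (hT' : T + wtM F ≤ L'.T)
    (hV : Vis c c' = true) (h : VRJ L ix T c c' v u) : VRJ L' ix' (T + wtM F) c c'
      (dlJ r L L' (cd s3 s4 F) T (T + wtM F) c c' v) (dly y (monomial F 1) u) := by
  refine ⟨dly_HJ H.hy (hg_mon F) h.hz, fun k hk => ?_⟩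
  obtain ⟨x, h1, h2⟩ := h.run _ hk
  rw [← zero_add (cq _ _ _ _)]
  refine enumA_ind (Q := fun kk : KK => ∀ x z u ζ, u ∈ HJ L ix T c → x.R (cq L ix (Wn c c') u) →
    z.R ζ → kk.f x z = true → ∃ x', x'.R (ζ + cq L' ix' (Wn c c') (dly y (monomial F 1) u)) ∧
      k x' = true) (fun x z u ζ hu hx hz hk => ?_)
    (fun i j l e2 e3 e4 kk ha hp hkk x z u ζ hu hx hz hk => ?_) x P.zero u 0 h.hz h1 P.R_zero h2
  · refine ⟨z, ?_, (zc_spec hk).1⟩
    rwa [cq_Wn_zero (dly_ZJ _ (mem_of_cq H.ok hT hu.1 hV hu.2 (rp_eq_zero hx (zc_spec hk).2))),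
      add_zero]
  · obtain ⟨g, rfl⟩ := H.ok.sur i ha.1
    change dj4 _ _ _ _ _ _ _ _ _ _ _ _ _ _ _ _ = true at hk
    rw [dj4, force_eq, dj5, force_eq, dj6] at hk
    revert hk
    refine bool_ind (Q := fun c => c = true → _) (fun hk => ?_) fun _ hk => hkk x z u ζ hu hx hz hk
    rw [force_eq, dj7, pr_eq, dl7, pr_eq, dl8] at hk
    revert hk
    generalize Nat.add (Nat.land _ _) _ = t
    intro hk
    have h3 := (ha.wn c c').2 hp
    obtain ⟨x', h5, h6⟩ := hkk _ _ _ _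
      (sub_mem hu (Submodule.smul_mem _ (t : K) (bv_memJ ha.wt.1 h3.1))) (by
        rw [map_sub, map_smul, cq_bv _ h3, ha.wt.2.2, sub_eq_add_neg]
        exact hx.add (P.R.sm t fun _ => un_R _).neg)
      (hz.add (P.R.sm t fun _ => H.msk hT' ha hV (wn_iff.1 hp).1)) hk
    refine ⟨x', ?_, h6⟩
    rwa [map_sub, map_sub, map_smul, map_smul, add_assoc, add_sub_cancel] at h5

end VRJ

theorem runL_specJ {l : List VC} {φ : List (G → A)} (h : List.Forall₂ (VRJ L ix T c c') l φ)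
    {k : PL → Bool} (hk : runL l k = true) :
    ∃ l' : PL, (∀ x, l'.Mem x → ∃ u ∈ φ, VPJ L ix T c c' x u) ∧ k l' = true := by
  induction h generalizing k with
  | nil => exact ⟨PL.nil, fun _ h => False.elim h, hk⟩
  | cons h _ ih =>
    obtain ⟨x, h1, h2⟩ := h.run _ hk
    obtain ⟨l', h3, h4⟩ := ih h2
    refine ⟨_, fun z hz => ?_, h4⟩
    rcases hz with rfl | hz
    · exact ⟨_, List.mem_cons_self, h.hz, h1⟩
    · exact (h3 z hz).imp fun _ h => ⟨List.mem_cons_of_mem _ h.1, h.2⟩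

end Vale.Agent.P236J3

end
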